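import Mathlib

/-!
P219: complete metrics of nonpositive sectional curvature on `ℝⁿ` in coordinates, through the
classical formulas. Only definitions: these are what the hand-in statements use.
-/

namespace Vale.Agent.P219.CH.Coord

open MeasureTheory
open scoped ContDiff

noncomputable section

/-- The points of `ℝⁿ`. -/
abbrev Pt (n : ℕ) := EuclideanSpace ℝ (Fin n)

variable {n : ℕ}

/-- The partial derivative in direction `i`. -/
def pd (φ : Pt n → ℝ) (x : Pt n) (i : Fin n) : ℝ := lineDeriv ℝ φ x (EuclideanSpace.single i 1)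

/-- A smooth Riemannian metric: a smooth field of symmetric positive definite matrices. -/
def Metric (g : Pt n → Fin n → Fin n → ℝ) : Prop :=
  (∀ i j, ContDiff ℝ ∞ fun x => g x i j) ∧ (∀ x i j, g x i j = g x j i) ∧
    ∀ x, ∀ u : Fin n → ℝ, u ≠ 0 → 0 < ∑ i, ∑ j, g x i j * u i * u j

/-- The inverse matrix. -/
def ginv (g : Pt n → Fin n → Fin n → ℝ) (x : Pt n) (i j : Fin n) : ℝ := (Matrix.of (g x))⁻¹ i j

/-- The Christoffel symbol `Γ^k_ij`. -/
def christ (g : Pt n → Fin n → Fin n → ℝ) (x : Pt n) (k i j : Fin n) : ℝ :=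
  (1 / 2) * ∑ l, ginv g x k l *
    (pd (fun y => g y l j) x i + pd (fun y => g y l i) x j - pd (fun y => g y i j) x l)

/-- The component `l` of `R(∂ᵢ, ∂ⱼ) ∂ₖ`. -/
def riem (g : Pt n → Fin n → Fin n → ℝ) (x : Pt n) (l i j k : Fin n) : ℝ :=
  pd (fun y => christ g y l j k) x i - pd (fun y => christ g y l i k) x j +
    ∑ p, (christ g x l i p * christ g x p j k - christ g x l j p * christ g x p i k)

/-- `G(R(u, v) v, u)`, a positive multiple of the sectional curvature of the plane of `u, v`. -/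
def secNum (g : Pt n → Fin n → Fin n → ℝ) (x : Pt n) (u v : Fin n → ℝ) : ℝ :=
  ∑ i, ∑ j, ∑ k, ∑ l, ∑ m, g x l m * riem g x l i j k * u i * v j * v k * u m

/-- Every geodesic is defined for all times. -/
def Complete (g : Pt n → Fin n → Fin n → ℝ) : Prop :=
  ∀ x v : Pt n, ∃ γ w : ℝ → Pt n, γ 0 = x ∧ w 0 = v ∧ ∀ t k,
    HasDerivAt (fun s => γ s k) (w t k) t ∧
    HasDerivAt (fun s => w s k) (-∑ i, ∑ j, christ g (γ t) k i j * w t i * w t j) t

/-- A complete metric with nonpositive sectional curvature. -/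
def CartanHadamard (g : Pt n → Fin n → Fin n → ℝ) : Prop :=
  Metric g ∧ Complete g ∧ ∀ x u v, secNum g x u v ≤ 0

/-- The Riemannian volume density. -/
def density (g : Pt n → Fin n → Fin n → ℝ) (x : Pt n) : ℝ := Real.sqrt (Matrix.of (g x)).det

/-- The length of the gradient of `f`. -/
def gradLen (g : Pt n → Fin n → Fin n → ℝ) (f : Pt n → ℝ) (x : Pt n) : ℝ :=
  Real.sqrt (∑ i, ∑ j, ginv g x i j * pd f x i * pd f x j)

/-- The volume of the Euclidean unit ball. -/
def ballVol (n : ℕ) : ℝ := (volume (Metric.ball (0 : Pt n) 1)).toReal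

end

end Vale.Agent.P219.CH.Coord
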