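import Vale.Agent.P219.CH.Geo.Basic
import Vale.Agent.P219.CH.Coord

/-!
P219: the coordinate formulas describe the same geometry as `CH/Defs`.
-/

namespace Vale.Agent.P219.CH.Coord

open MeasureTheory
open scoped ContDiff

noncomputable section

set_option maxSynthPendingDepth 3

variable {n : ℕ} {g : E n → Fin n → Fin n → ℝ}

lemma sum_swap3 (F : Fin n → Fin n → Fin n → ℝ) :
    ∑ l, ∑ m, ∑ i, F l m i = ∑ i, ∑ l, ∑ m, F l m i := by
  rw [Finset.sum_comm (s := Finset.univ) (t := Finset.univ) (f := fun i l => ∑ m, F l m i)]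
  exact Finset.sum_congr rfl fun l _ => Finset.sum_comm

/-- The bilinear form of a matrix field. -/
def toCoeff (g : E n → Fin n → Fin n → ℝ) : Coeff n := fun x =>
  ∑ i, ∑ j, g x i j • (EuclideanSpace.proj (𝕜 := ℝ) i).smulRight (EuclideanSpace.proj (𝕜 := ℝ) j)

lemma toCoeff_apply (g : E n → Fin n → Fin n → ℝ) (x u v : E n) :
    toCoeff g x u v = ∑ i, ∑ j, g x i j * u i * v j := by
  simp [toCoeff, mul_assoc]

lemma toCoeff_single (g : E n → Fin n → Fin n → ℝ) (x : E n) (i j : Fin n) :
    toCoeff g x (single₁ i) (single₁ j) = g x i j := by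
  simp [toCoeff_apply, single₁, PiLp.single_apply]

lemma apply_eq_sum (L : E n →L[ℝ] ℝ) (u : E n) : L u = ∑ i, u i * L (single₁ i) := by
  conv_lhs => rw [← sum_coord_smul u]
  simp [map_sum]

lemma isMetric (hg : Metric g) : IsMetric (toCoeff g) where
  smooth := ContDiff.sum fun i _ => ContDiff.sum fun j _ => (hg.1 i j).smul contDiff_const
  symm x u v := by
    rw [toCoeff_apply, toCoeff_apply, Finset.sum_comm]
    exact Finset.sum_congr rfl fun i _ => Finset.sum_congr rfl fun j _ => by
      rw [hg.2.1 x j i]; ring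
  pos x u hu := by
    rw [toCoeff_apply]
    exact hg.2.2 x (fun i => u i) fun h => hu (by ext i; simpa using congrFun h i)

lemma pd_eq {φ : E n → ℝ} {x : E n} (h : DifferentiableAt ℝ φ x) (i : Fin n) :
    pd φ x i = fderiv ℝ φ x (single₁ i) := h.lineDeriv_eq_fderiv

lemma differentiableAt_entry (hg : Metric g) (x : E n) (i j : Fin n) :
    DifferentiableAt ℝ (fun y => g y i j) x := ((hg.1 i j).differentiable (by simp)).differentiableAt

lemma fderiv_toCoeff (hg : Metric g) (x : E n) (k i j : Fin n) :
    fderiv ℝ (toCoeff g) x (single₁ k) (single₁ i) (single₁ j) = pd (fun y => g y i j) x k := by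
  rw [pd_eq (differentiableAt_entry hg x i j)]
  have h := ((isMetric hg).hasFDerivAt_apply x (single₁ i) (single₁ j)).fderiv
  simp only [toCoeff_single] at h
  rw [h]
  simp

lemma isUnit_det (hg : Metric g) (x : E n) : IsUnit (Matrix.of (g x)).det := by
  have h := ((isMetric hg).posDef_gmat x).det_pos
  rw [show gmat (toCoeff g) x = Matrix.of (g x) from
    Matrix.ext fun i j => toCoeff_single g x i j] at h
  exact isUnit_iff_ne_zero.2 h.ne'

lemma sum_mul_ginv (hg : Metric g) (x : E n) (l m : Fin n) :
    ∑ k, g x l k * ginv g x k m = if l = m then 1 else 0 := by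
  have h := congrFun (congrFun (Matrix.mul_nonsing_inv _ (isUnit_det hg x)) l) m
  simpa [Matrix.mul_apply, Matrix.one_apply, ginv] using h

/-- A vector given by `g⁻¹` applied to a functional represents that functional. -/
lemma eq_of_rep (hg : Metric g) (x w : E n) (c : Fin n → ℝ)
    (h : ∀ l, toCoeff g x w (single₁ l) = c l) (k : Fin n) : w k = ∑ l, ginv g x k l * c l := by
  suffices w = WithLp.toLp 2 fun k => ∑ l, ginv g x k l * c l by rw [this]
  refine (isMetric hg).ext (x := x) fun z => ?_
  rw [apply_eq_sum (toCoeff g x w) z, apply_eq_sum (toCoeff g x _) z]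
  refine Finset.sum_congr rfl fun l _ => ?_
  rw [h]
  congr 1
  simp only [toCoeff_apply, single₁, PiLp.single_apply, mul_ite, mul_one, mul_zero,
    Finset.sum_ite_eq', Finset.mem_univ, if_true, Finset.mul_sum]
  rw [Finset.sum_comm]
  symm
  calc ∑ m, ∑ i, g x i l * (ginv g x i m * c m)
      = ∑ m, (∑ i, g x l i * ginv g x i m) * c m := by
        simp only [Finset.sum_mul, hg.2.1 x l, mul_assoc]
    _ = c l := by simp [sum_mul_ginv hg]

lemma chr_single (hg : Metric g) (x : E n) (k i j : Fin n) :
    chr (toCoeff g) x (single₁ i) (single₁ j) k = christ g x k i j := by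
  rw [eq_of_rep hg x _ _ (fun l => (isMetric hg).G_chr x _ _ _) k, christ, Finset.mul_sum]
  refine Finset.sum_congr rfl fun l _ => ?_
  simp only [koszul, smul_apply, sub_apply, add_apply, ContinuousLinearMap.flip_apply, smul_eq_mul,
    fderiv_toCoeff hg]
  rw [show (fun y => g y j l) = fun y => g y l j from funext fun y => hg.2.1 y j l,
    show (fun y => g y i l) = fun y => g y l i from funext fun y => hg.2.1 y i l]
  ring

lemma chr_apply (hg : Metric g) (x u v : E n) (k : Fin n) :
    chr (toCoeff g) x u v k = ∑ i, ∑ j, christ g x k i j * u i * v j := by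
  conv_lhs => rw [← sum_coord_smul u, ← sum_coord_smul v]
  simp only [← chrL_apply, map_sum, map_smul, sum_apply, smul_apply]
  simp only [chrL_apply, WithLp.ofLp_sum, WithLp.ofLp_smul, Finset.sum_apply, Pi.smul_apply,
    smul_eq_mul, chr_single hg]
  rw [Finset.sum_comm]
  refine Finset.sum_congr rfl fun i _ => ?_
  simp only [Finset.mul_sum]
  exact Finset.sum_congr rfl fun j _ => by ring

lemma pd_christ (hg : Metric g) (x : E n) (l i j k : Fin n) :
    pd (fun y => christ g y l j k) x i =
      fderiv ℝ (chrL (toCoeff g)) x (single₁ i) (single₁ j) (single₁ k) l := by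
  have hd := (isMetric hg).differentiableAt_chr x (single₁ j) (single₁ k)
  have h := ((EuclideanSpace.proj (𝕜 := ℝ) l).hasFDerivAt.comp x hd.hasFDerivAt)
  have e : (fun y => christ g y l j k) =
      (EuclideanSpace.proj (𝕜 := ℝ) l) ∘ fun y => chr (toCoeff g) y (single₁ j) (single₁ k) :=
    funext fun y => by simp [chr_single hg]
  rw [e, pd_eq h.differentiableAt, h.fderiv, ← (isMetric hg).fderiv_chr]
  rfl

lemma curv_single (hg : Metric g) (x : E n) (l i j k : Fin n) :
    curv (toCoeff g) x (single₁ i) (single₁ j) (single₁ k) l = riem g x l i j k := by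
  rw [(isMetric hg).curv_eq, riem, pd_christ hg, pd_christ hg, Finset.sum_sub_distrib]
  simp only [WithLp.ofLp_add, WithLp.ofLp_sub, Pi.add_apply, Pi.sub_apply, chr_apply hg,
    chr_single hg]
  simp [single₁, PiLp.single_apply]
  ring

lemma sec_eq (hg : Metric g) (x u v : E n) :
    toCoeff g x (curv (toCoeff g) x u v v) u = secNum g x (fun i => u i) (fun i => v i) := by
  have hG := isMetric hg
  let T : E n →ₗ[ℝ] E n →ₗ[ℝ] E n →ₗ[ℝ] E n :=
    LinearMap.mk₂ ℝ (fun a b =>
      { toFun := curv (toCoeff g) x a b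
        map_add' := hG.curv_add_right x a b
        map_smul' := fun c w => hG.curv_smul_right x a b w c })
      (fun a a' b => LinearMap.ext fun w => hG.curv_add_left x a a' b w)
      (fun c a b => LinearMap.ext fun w => hG.curv_smul_left x a b w c)
      (fun a b b' => LinearMap.ext fun w => hG.curv_add_middle x a b b' w)
      (fun c a b => LinearMap.ext fun w => hG.curv_smul_middle x a b w c)
  have e : ∀ l, curv (toCoeff g) x u v v l =
      ∑ i, ∑ j, ∑ k, u i * (v j * (v k * riem g x l i j k)) := by
    intro l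
    change T u v v l = _
    conv_lhs => rw [← sum_coord_smul u, ← sum_coord_smul v]
    simp only [map_sum, map_smul, LinearMap.coe_sum, Finset.sum_apply, LinearMap.smul_apply,
      WithLp.ofLp_sum, WithLp.ofLp_smul, Pi.smul_apply, smul_eq_mul, Finset.mul_sum,
      Finset.smul_sum]
    have hT : ∀ i j k, T (single₁ i) (single₁ j) (single₁ k) l = riem g x l i j k :=
      fun i j k => curv_single hg x l i j k
    simp only [hT]
    rw [Finset.sum_comm]
    refine (Finset.sum_congr rfl fun j _ => Finset.sum_comm).trans ?_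
    rw [Finset.sum_comm]
    refine Finset.sum_congr rfl fun i _ => Finset.sum_congr rfl fun j _ => ?_
    exact Finset.sum_congr rfl fun k _ => by ring
  simp only [toCoeff_apply, e, secNum, Finset.mul_sum, Finset.sum_mul]
  rw [sum_swap3]
  refine Finset.sum_congr rfl fun i _ => ?_
  rw [sum_swap3]
  refine Finset.sum_congr rfl fun j _ => ?_
  rw [sum_swap3]
  refine Finset.sum_congr rfl fun k _ => Finset.sum_congr rfl fun l _ =>
    Finset.sum_congr rfl fun m _ => ?_
  ring

theorem isCH (h : CartanHadamard g) : IsCH (toCoeff g) where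
  metric := isMetric h.1
  complete x v := by
    obtain ⟨γ, w, h0, hw, hd⟩ := h.2.1 x v
    have key : ∀ (c : ℝ → E n) (c' : E n) (t : ℝ),
        (∀ k, HasDerivAt (fun s => c s k) (c' k) t) → HasDerivAt c c' t := by
      intro c c' t hc
      have := (PiLp.continuousLinearEquiv 2 ℝ fun _ : Fin n => ℝ).symm.hasFDerivAt.comp_hasDerivAt
        t (hasDerivAt_pi.2 hc)
      simpa [Function.comp_def] using this
    have h1 : ∀ t, HasDerivAt γ (w t) t := fun t => key γ (w t) t fun k => (hd t k).1
    have e : deriv γ = w := funext fun t => (h1 t).deriv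
    refine ⟨γ, fun t => ⟨(h1 t).differentiableAt.hasDerivAt, ?_⟩, h0, by rw [e, hw]⟩
    rw [e]
    refine key w _ t fun k => ?_
    simp only [WithLp.ofLp_neg, Pi.neg_apply, chr_apply h.1]
    exact (hd t k).2
  sec x u v := (sec_eq h.1 x u v).trans_le (h.2.2 x _ _)

lemma dens_eq_density (g : E n → Fin n → Fin n → ℝ) : dens (toCoeff g) = density g := by
  funext x
  rw [dens, density]
  congr 2
  exact Matrix.ext fun i j => toCoeff_single g x i j

lemma gnorm_grad (hg : Metric g) {f : E n → ℝ} {x : E n} (hf : DifferentiableAt ℝ f x) :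
    gnorm (toCoeff g) x (grad (toCoeff g) f x) = gradLen g f x := by
  have hk : ∀ k, grad (toCoeff g) f x k = ∑ l, ginv g x k l * pd f x l :=
    eq_of_rep hg x _ _ fun l => by rw [(isMetric hg).G_grad, pd_eq hf]
  rw [gnorm, gradLen, (isMetric hg).G_grad, apply_eq_sum]
  congr 1
  refine Finset.sum_congr rfl fun i _ => ?_
  rw [hk, ← pd_eq hf, Finset.sum_mul]
  exact Finset.sum_congr rfl fun j _ => by ring

lemma integral_vol (hg : Metric g) (h : E n → ℝ) :
    ∫ x, h x ∂vol (toCoeff g) = ∫ x, h x * density g x := by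
  have hm : Measurable fun x => ENNReal.ofReal (dens (toCoeff g) x) :=
    ((isMetric hg).contDiff_dens.continuous.measurable).ennreal_ofReal
  rw [vol, integral_withDensity_eq_integral_toReal_smul hm
    (Filter.Eventually.of_forall fun x => ENNReal.ofReal_lt_top)]
  congr 1; funext x
  rw [dens_eq_density, ENNReal.toReal_ofReal (show 0 ≤ density g x from Real.sqrt_nonneg _),
    smul_eq_mul, mul_comm]

end

end Vale.Agent.P219.CH.Coord
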