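import Vale.Agent.P219.CH.Coord

/-!
P219: Riemannian neighbourhoods in coordinates. Only definitions.
-/

namespace Vale.Agent.P219.CH.Coord

open MeasureTheory

noncomputable section

variable {n : ℕ}

/-- The length of a tangent vector. -/
def len (g : Pt n → Fin n → Fin n → ℝ) (x u : Pt n) : ℝ :=
  Real.sqrt (∑ i, ∑ j, g x i j * u i * u j)

/-- The end points of `C¹` curves of length less than `ε` starting in `S`. -/
def nbhdOf (g : Pt n → Fin n → Fin n → ℝ) (S : Set (Pt n)) (ε : ℝ) : Set (Pt n) :=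
  {q | ∃ γ : ℝ → Pt n, ContDiff ℝ 1 γ ∧ γ 0 ∈ S ∧ γ 1 = q ∧
    ∫ s in (0 : ℝ)..1, len g (γ s) (deriv γ s) < ε}

/-- The Riemannian volume. -/
def volOf (g : Pt n → Fin n → Fin n → ℝ) (T : Set (Pt n)) : ENNReal :=
  ∫⁻ x in T, ENNReal.ofReal (density g x)

end

end Vale.Agent.P219.CH.Coord
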