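import Vale.Agent.P219.CH.Geo.Basic

/-!
P219: from the smooth inequality to lower Minkowski content.

If `vol (nbhd ε) < vol S + ε c`, clamp the curve-length distance to `S` to a function which is `1`
near `S` and `0` off the neighbourhood, and mollify it: its total variation is almost at most `c`
and its intermediate values live on a set of volume at most `ε c`.
-/

namespace Vale.Agent.P219.CH

open MeasureTheory Filter Topology Metric Set InnerProductSpace
open scoped ContDiff RealInnerProductSpace Convolution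

noncomputable section

-- needed to find the norms on spaces of bilinear maps
set_option maxSynthPendingDepth 3

namespace Minkowski

open Real (smoothTransition)

variable {n : ℕ} {G : Coeff n}

theorem hasDerivAt_step (t : ℝ) : HasDerivAt smoothTransition (deriv smoothTransition t) t :=
  ((Real.smoothTransition.contDiff (n := 1)).differentiable (by simp) t).hasDerivAt

theorem continuous_deriv_step : Continuous (deriv smoothTransition) :=
  (Real.smoothTransition.contDiff (n := 1)).continuous_deriv le_rfl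

theorem deriv_step_nonneg (t : ℝ) : 0 ≤ deriv smoothTransition t :=
  Real.smoothTransition.monotone.deriv_nonneg

theorem deriv_step_of_nonpos {t : ℝ} (h : t ≤ 0) : deriv smoothTransition t = 0 :=
  IsLocalMin.deriv_eq_zero <| Eventually.of_forall fun y => by
    rw [Real.smoothTransition.zero_of_nonpos h]; exact Real.smoothTransition.nonneg y

theorem deriv_step_of_one_le {t : ℝ} (h : 1 ≤ t) : deriv smoothTransition t = 0 :=
  IsLocalMax.deriv_eq_zero <| Eventually.of_forall fun y => by
    rw [Real.smoothTransition.one_of_one_le h]; exact Real.smoothTransition.le_one y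

/-- The length of a curve. -/
def clen (G : Coeff n) (γ : ℝ → E n) : ℝ := ∫ s in (0 : ℝ)..1, gnorm G (γ s) (deriv γ s)

/-- The lengths of the curves from `S` to `x`. -/
def lengths (G : Coeff n) (S : Set (E n)) (x : E n) : Set ℝ :=
  {r | ∃ γ : ℝ → E n, ContDiff ℝ 1 γ ∧ γ 0 ∈ S ∧ γ 1 = x ∧ clen G γ = r}

/-- The distance to `S`. -/
def cdist (G : Coeff n) (S : Set (E n)) (x : E n) : ℝ := sInf (lengths G S x)

theorem clen_nonneg (G : Coeff n) (γ : ℝ → E n) : 0 ≤ clen G γ :=
  intervalIntegral.integral_nonneg zero_le_one fun _ _ => gnorm_nonneg G _ _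

theorem bddBelow_lengths (G : Coeff n) (S : Set (E n)) (x : E n) : BddBelow (lengths G S x) :=
  ⟨0, fun _ ⟨γ, _, _, _, hr⟩ => hr ▸ clen_nonneg G γ⟩

variable {S : Set (E n)}

theorem lengths_nonempty (hS : S.Nonempty) (x : E n) : (lengths G S x).Nonempty := by
  obtain ⟨p, hp⟩ := hS
  exact ⟨_, fun s => p + s • (x - p), by fun_prop, by simpa using hp, by simp, rfl⟩

theorem mem_nbhd_iff (hS : S.Nonempty) {x : E n} {ε : ℝ} :
    x ∈ nbhd G S ε ↔ cdist G S x < ε := by
  constructor
  · rintro ⟨γ, h1, h2, h3, h4⟩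
    exact (csInf_le (bddBelow_lengths G S x) ⟨γ, h1, h2, h3, rfl⟩).trans_lt h4
  · intro h
    obtain ⟨r, ⟨γ, h1, h2, h3, h4⟩, hr⟩ := exists_lt_of_csInf_lt (lengths_nonempty hS x) h
    exact ⟨γ, h1, h2, h3, h4.trans_lt hr⟩

theorem cdist_of_mem {x : E n} (hx : x ∈ S) : cdist G S x ≤ 0 := by
  refine csInf_le (bddBelow_lengths G S x) ⟨fun _ => x, contDiff_const, hx, rfl, ?_⟩
  simp [clen, gnorm]

variable (hG : IsMetric G)
include hG

theorem continuous_speed {γ : ℝ → E n} (hγ : ContDiff ℝ 1 γ) :
    Continuous fun s => gnorm G (γ s) (deriv γ s) :=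
  hG.continuous_gnorm.comp (hγ.continuous.prodMk (hγ.continuous_deriv le_rfl))

/-- Continue a curve by a segment. -/
theorem exists_extend {γ : ℝ → E n} (hγ : ContDiff ℝ 1 γ) {x y : E n} (h1 : γ 1 = x) {M : ℝ}
    (hM : ∀ t ∈ Icc (0 : ℝ) 1, gnorm G (x + t • (y - x)) (y - x) ≤ M) :
    ∃ η : ℝ → E n, ContDiff ℝ 1 η ∧ η 0 = γ 0 ∧ η 1 = y ∧ clen G η ≤ clen G γ + M := by
  have hsmoothTransition : ContDiff ℝ 1 smoothTransition := Real.smoothTransition.contDiff
  set η : ℝ → E n := fun s => γ (smoothTransition (2 * s)) + smoothTransition (2 * s - 1) • (y - x) with hη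
  have hη1 : ContDiff ℝ 1 η :=
    (hγ.comp (hsmoothTransition.comp (by fun_prop))).add ((hsmoothTransition.comp (by fun_prop)).smul contDiff_const)
  have hd : ∀ s, deriv η s =
      (deriv smoothTransition (2 * s) * 2) • deriv γ (smoothTransition (2 * s)) + (deriv smoothTransition (2 * s - 1) * 2) • (y - x) := by
    intro s
    have ha : HasDerivAt (fun s : ℝ => 2 * s) 2 s := by simpa using (hasDerivAt_id s).const_mul 2
    exact ((((hγ.differentiable (by simp)) _).hasDerivAt.scomp s
      ((hasDerivAt_step _).comp s ha)).add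
        (((hasDerivAt_step _).comp s (ha.sub_const 1)).smul_const (y - x))).deriv
  refine ⟨η, hη1, by simp [hη, Real.smoothTransition.zero_of_nonpos], ?_, ?_⟩
  · norm_num [hη, Real.smoothTransition.one_of_one_le, h1]
  have hc := continuous_speed hG hη1
  rw [clen, ← intervalIntegral.integral_add_adjacent_intervals (b := 1 / 2)
    (hc.intervalIntegrable 0 (1 / 2)) (hc.intervalIntegrable (1 / 2) 1)]
  refine add_le_add (le_of_eq ?_) ?_
  · have e : ∀ s ∈ uIcc (0 : ℝ) (1 / 2), gnorm G (η s) (deriv η s) =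
        ((fun u => gnorm G (γ u) (deriv γ u)) ∘ fun s => smoothTransition (2 * s)) s * (deriv smoothTransition (2 * s) * 2) := by
      intro s hs
      rw [uIcc_of_le (by norm_num)] at hs
      have hle : 2 * s - 1 ≤ 0 := by linarith [hs.2]
      rw [hd, hη]
      simp only [Real.smoothTransition.zero_of_nonpos hle, deriv_step_of_nonpos hle]
      simp only [zero_mul, zero_smul, add_zero, gnorm_smul, Function.comp_apply]
      rw [abs_of_nonneg (by linarith [deriv_step_nonneg (2 * s)]), mul_comm]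
    have hf' : Continuous fun s : ℝ => deriv smoothTransition (2 * s) * 2 :=
      (continuous_deriv_step.comp (by fun_prop)).mul continuous_const
    have hdf : ∀ s ∈ uIcc (0 : ℝ) (1 / 2),
        HasDerivAt (fun s => smoothTransition (2 * s)) (deriv smoothTransition (2 * s) * 2) s := fun s _ =>
      (hasDerivAt_step _).comp s (by simpa using (hasDerivAt_id s).const_mul 2)
    rw [intervalIntegral.integral_congr e, intervalIntegral.integral_comp_mul_deriv hdf
      hf'.continuousOn (continuous_speed hG hγ)]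
    norm_num [clen, Real.smoothTransition.zero_of_nonpos, Real.smoothTransition.one_of_one_le]
  · have hb : ∀ s ∈ Icc (1 / 2 : ℝ) 1,
        gnorm G (η s) (deriv η s) ≤ (deriv smoothTransition (2 * s - 1) * 2) * M := by
      intro s hs
      have hge : 1 ≤ 2 * s := by linarith [hs.1]
      rw [hd, hη]
      simp only [Real.smoothTransition.one_of_one_le hge, deriv_step_of_one_le hge, h1]
      simp only [zero_mul, zero_smul, zero_add, gnorm_smul]
      rw [abs_of_nonneg (by linarith [deriv_step_nonneg (2 * s - 1)])]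
      exact mul_le_mul_of_nonneg_left
        (hM _ ⟨Real.smoothTransition.nonneg _, Real.smoothTransition.le_one _⟩)
        (by linarith [deriv_step_nonneg (2 * s - 1)])
    have hc2 : Continuous fun s : ℝ => deriv smoothTransition (2 * s - 1) * 2 :=
      (continuous_deriv_step.comp (by fun_prop)).mul continuous_const
    refine (intervalIntegral.integral_mono_on (by norm_num) (hc.intervalIntegrable _ _)
      ((hc2.mul continuous_const).intervalIntegrable _ _) hb).trans (le_of_eq ?_)
    simp only [Pi.mul_apply]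
    rw [intervalIntegral.integral_mul_const,
      intervalIntegral.integral_eq_sub_of_hasDerivAt (f := fun s => smoothTransition (2 * s - 1))
        (fun s _ => (hasDerivAt_step _).comp s
          (by simpa using ((hasDerivAt_id s).const_mul 2).sub_const 1))
        (hc2.intervalIntegrable _ _)]
    norm_num [Real.smoothTransition.zero_of_nonpos, Real.smoothTransition.one_of_one_le]

theorem cdist_le_add (hS : S.Nonempty) {x y : E n} {M : ℝ}
    (hM : ∀ t ∈ Icc (0 : ℝ) 1, gnorm G (x + t • (y - x)) (y - x) ≤ M) :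
    cdist G S y ≤ cdist G S x + M := by
  rw [← sub_le_iff_le_add]
  refine le_csInf (lengths_nonempty hS x) ?_
  rintro r ⟨γ, h1, h2, h3, rfl⟩
  obtain ⟨η, e1, e2, e3, e4⟩ := exists_extend hG h1 h3 hM
  have := csInf_le (bddBelow_lengths G S y) ⟨η, e1, e2 ▸ h2, e3, rfl⟩
  rw [cdist]; linarith

theorem abs_cdist_sub_le (hS : S.Nonempty) {x y : E n} {M : ℝ}
    (hM : ∀ t ∈ Icc (0 : ℝ) 1, gnorm G (x + t • (y - x)) (y - x) ≤ M) :
    |cdist G S y - cdist G S x| ≤ M := by
  have h1 := cdist_le_add hG hS hM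
  have h2 : cdist G S x ≤ cdist G S y + M := by
    refine cdist_le_add hG hS fun t ht => ?_
    have e : y + t • (x - y) = x + (1 - t) • (y - x) := by module
    have e' : x - y = (-1 : ℝ) • (y - x) := by module
    rw [e]
    conv_lhs => rw [e', gnorm_smul, abs_neg, abs_one, one_mul]
    exact hM _ ⟨by linarith [ht.2], by linarith [ht.1]⟩
  rw [abs_le]; constructor <;> linarith

theorem exists_upper {K : Set (E n)} (hK : IsCompact K) :
    ∃ M : ℝ, 0 ≤ M ∧ ∀ x ∈ K, ∀ u, gnorm G x u ≤ M * ‖u‖ := by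
  obtain ⟨C, hC⟩ := hK.exists_bound_of_continuousOn hG.smooth.continuous.continuousOn
  refine ⟨Real.sqrt (max C 0), Real.sqrt_nonneg _, fun x hx u => ?_⟩
  rw [gnorm, ← Real.sqrt_sq (norm_nonneg u), ← Real.sqrt_mul (le_max_right C 0)]
  refine Real.sqrt_le_sqrt ((le_abs_self _).trans ?_)
  calc |G x u u| ≤ ‖G x‖ * ‖u‖ * ‖u‖ := (G x).le_opNorm₂ u u
    _ ≤ max C 0 * ‖u‖ * ‖u‖ := by gcongr; exact (hC x hx).trans (le_max_left _ _)
    _ = _ := by ring

theorem exists_lower {K : Set (E n)} (hK : IsCompact K) :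
    ∃ m : ℝ, 0 < m ∧ ∀ x ∈ K, ∀ u, m * ‖u‖ ≤ gnorm G x u := by
  obtain ⟨m, hm, h⟩ := (hK.prod (isCompact_sphere (0 : E n) 1)).exists_forall_le'
    (a := (0 : ℝ)) hG.continuous_gnorm.continuousOn
    fun p hp => hG.gnorm_pos (ne_of_mem_sphere hp.2 one_ne_zero)
  refine ⟨m, hm, fun x hx u => ?_⟩
  rcases eq_or_ne u 0 with rfl | hu
  · simp [gnorm]
  have hnu : 0 < ‖u‖ := norm_pos_iff.2 hu
  have h1 := h (x, ‖u‖⁻¹ • u) ⟨hx, by simp [norm_smul, hnu.ne']⟩
  rw [gnorm_smul, abs_inv, abs_norm, inv_mul_eq_div, le_div_iff₀ hnu] at h1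
  exact h1

theorem continuous_cdist (hS : S.Nonempty) : Continuous (cdist G S) := by
  refine continuous_iff_continuousAt.2 fun x => ?_
  obtain ⟨M, -, hM⟩ := exists_upper hG (isCompact_closedBall x 1)
  refine continuousAt_of_locally_lipschitz one_pos M fun y hy => ?_
  rw [Real.dist_eq, dist_eq_norm]
  refine abs_cdist_sub_le hG hS fun t ht => hM _ ?_ _
  have h := (convex_closedBall x (1 : ℝ)).add_smul_sub_mem (mem_closedBall_self zero_le_one)
    (mem_closedBall.2 hy.le) ht
  exact h

/-- Short curves from `S` do not get far. -/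
theorem norm_le_of_cdist_lt (hS : S.Nonempty) {R m : ℝ} (hR : S ⊆ closedBall 0 R)
    (hm : ∀ x ∈ closedBall (0 : E n) (R + 1), ∀ u, m * ‖u‖ ≤ gnorm G x u)
    {x : E n} (hx : cdist G S x < m) : ‖x‖ ≤ R + 1 := by
  obtain ⟨γ, h1, h2, h3, h4⟩ := (mem_nbhd_iff hS).2 hx
  by_contra hne
  push Not at hne
  have h0 : ‖γ 0‖ ≤ R := by simpa using hR h2
  set T : Set ℝ := {s | s ∈ Icc (0 : ℝ) 1 ∧ R + 1 ≤ ‖γ s‖} with hT
  have hTc : IsCompact T := isCompact_Icc.of_isClosed_subset
    (isClosed_Icc.inter (isClosed_le continuous_const h1.continuous.norm)) fun s hs => hs.1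
  obtain ⟨s₀, ⟨hs₀, hs₀'⟩, hmin⟩ := hTc.exists_isLeast
    ⟨1, right_mem_Icc.2 zero_le_one, by rw [h3]; exact hne.le⟩
  have hc : Continuous fun s => m * ‖deriv γ s‖ :=
    continuous_const.mul (h1.continuous_deriv le_rfl).norm
  have hb : ∫ s in (0 : ℝ)..s₀, m * ‖deriv γ s‖ ≤
      ∫ s in (0 : ℝ)..s₀, gnorm G (γ s) (deriv γ s) := by
    refine intervalIntegral.integral_mono_on_of_le_Ioo hs₀.1 (hc.intervalIntegrable _ _)
      ((continuous_speed hG h1).intervalIntegrable _ _) fun s hs => hm _ ?_ _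
    rw [mem_closedBall_zero_iff]
    by_contra hgt
    exact absurd (hmin ⟨⟨hs.1.le, hs.2.le.trans hs₀.2⟩, (not_le.1 hgt).le⟩) (not_le.2 hs.2)
  have hsub : ∫ s in (0 : ℝ)..s₀, gnorm G (γ s) (deriv γ s) ≤ clen G γ :=
    intervalIntegral.integral_mono_interval le_rfl hs₀.1 hs₀.2
      (Eventually.of_forall fun s => gnorm_nonneg G _ _)
      ((continuous_speed hG h1).intervalIntegrable _ _)
  have hjump : 1 ≤ ∫ s in (0 : ℝ)..s₀, ‖deriv γ s‖ := by
    refine le_trans ?_ (intervalIntegral.norm_integral_le_integral_norm hs₀.1)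
    rw [intervalIntegral.integral_deriv_eq_sub
      (fun s _ => (h1.differentiable (by simp)) s)
      ((h1.continuous_deriv le_rfl).intervalIntegrable _ _)]
    linarith [norm_sub_norm_le (γ s₀) (γ 0)]
  rw [intervalIntegral.integral_const_mul] at hb
  have hm0 : 0 ≤ m := by
    by_contra hneg
    linarith [clen_nonneg G γ, show clen G γ < m from h4, not_le.1 hneg]
  have := mul_le_mul_of_nonneg_left hjump hm0
  linarith [show clen G γ < m from h4]

omit hG in
theorem abs_clamp_sub_le (a b : ℝ) :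
    |max 0 (min 1 a) - max 0 (min 1 b)| ≤ |a - b| := by
  refine abs_le.2 ⟨?_, ?_⟩ <;>
    rcases le_total 1 a with ha | ha <;> rcases le_total 1 b with hb | hb <;>
    simp only [min_eq_left, min_eq_right, ha, hb] <;>
    rcases le_total 0 a with ha' | ha' <;> rcases le_total 0 b with hb' | hb' <;>
    simp only [max_eq_left, max_eq_right, zero_le_one, ha', hb'] <;>
    linarith [le_abs_self (a - b), neg_abs_le (a - b)]

theorem gnorm_near {R : ℝ} {η : ℝ} (hη : 0 < η) :
    ∃ δ > 0, ∀ x ∈ closedBall (0 : E n) R, ∀ z, dist z x < δ → ∀ u,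
      gnorm G z u ≤ (1 + η) * gnorm G x u := by
  have hK : IsCompact (closedBall (0 : E n) (R + 1)) := isCompact_closedBall 0 (R + 1)
  obtain ⟨m, hm, hlow⟩ := exists_lower hG hK
  obtain ⟨δ, hδ, h⟩ := Metric.uniformContinuousOn_iff.1
    (hK.uniformContinuousOn_of_continuous hG.smooth.continuous.continuousOn) (η * m ^ 2)
    (by positivity)
  refine ⟨min δ 1, lt_min hδ one_pos, fun x hx z hz u => ?_⟩
  have hx1 : x ∈ closedBall (0 : E n) (R + 1) := closedBall_subset_closedBall (by linarith) hx
  have hz1 : z ∈ closedBall (0 : E n) (R + 1) := by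
    rw [mem_closedBall] at hx ⊢
    linarith [dist_triangle z x 0, hz.trans_le (min_le_right δ 1)]
  have hd : ‖G z - G x‖ ≤ η * m ^ 2 := by
    rw [← dist_eq_norm]; exact (h z hz1 x hx1 (hz.trans_le (min_le_left δ 1))).le
  have h1 : G z u u - G x u u ≤ η * m ^ 2 * ‖u‖ * ‖u‖ := by
    calc G z u u - G x u u = (G z - G x) u u := by simp
      _ ≤ ‖G z - G x‖ * ‖u‖ * ‖u‖ := (le_abs_self _).trans ((G z - G x).le_opNorm₂ u u)
      _ ≤ _ := by gcongr
  have h2 : (m * ‖u‖) ^ 2 ≤ G x u u := by
    rw [← hG.gnorm_sq]; exact pow_le_pow_left₀ (by positivity) (hlow x hx1 u) 2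
  have hsq : (gnorm G x u) ^ 2 = G x u u := hG.gnorm_sq x u
  rw [gnorm, Real.sqrt_le_left (by positivity [gnorm_nonneg G x u]), mul_pow, hsq]
  nlinarith [hG.nonneg x u, mul_le_mul_of_nonneg_left h2 hη.le, mul_nonneg (sq_nonneg η) (hG.nonneg x u),
    mul_nonneg hη.le (hG.nonneg x u)]

theorem gnorm_grad_le {f : E n → ℝ} {x : E n} {B : ℝ} (hB : 0 ≤ B)
    (h : ∀ w, |fderiv ℝ f x w| ≤ B * gnorm G x w) : gnorm G x (grad G f x) ≤ B := by
  have h1 := (le_abs_self _).trans (h (grad G f x))
  rw [← hG.G_grad, ← hG.gnorm_sq] at h1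
  by_contra hne
  nlinarith [not_le.1 hne, mul_lt_mul_of_pos_right (not_le.1 hne) (hB.trans_lt (not_le.1 hne))]

theorem finite_compacts : IsFiniteMeasureOnCompacts (vol G) := by
  have := IsLocallyFiniteMeasure.withDensity_ofReal (μ := (volume : Measure (E n)))
    hG.contDiff_dens.continuous
  rw [vol]; infer_instance

theorem isOpen_nbhd (hS : S.Nonempty) (ε : ℝ) : IsOpen (nbhd G S ε) := by
  have : nbhd G S ε = cdist G S ⁻¹' Iio ε := Set.ext fun x => mem_nbhd_iff hS
  rw [this]; exact isOpen_Iio.preimage (continuous_cdist hG hS)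

/-- The mollified clamp of the distance to `S`, which is one on `S`. -/
theorem exists_test_one (hS : S.Nonempty) {R m : ℝ} (hR : S ⊆ closedBall 0 R)
    (hm : ∀ x ∈ closedBall (0 : E n) (R + 1), ∀ u, m * ‖u‖ ≤ gnorm G x u)
    (hSm : MeasurableSet S) {ε c θ : ℝ} (hε : 0 < ε) (hεm : ε < m) (hθ : 0 < θ) (hθ1 : θ < 1)
    (hvol : vol G (nbhd G S ε \ S) < ENNReal.ofReal (ε * c)) :
    ∃ g : E n → ℝ, ContDiff ℝ ∞ g ∧ tsupport g ⊆ closedBall 0 (R + 2) ∧
      (∀ x, g x ∈ Icc (0 : ℝ) 1) ∧ (vol G S).toReal ≤ ∫ x, g x ∂vol G ∧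
      tvar G g ≤ (1 + θ) * c / (1 - θ) ∧ ∫ x, g x * (1 - g x) ∂vol G ≤ ε * c ∧
      ∀ x ∈ S, g x = 1 := by
  have := finite_compacts hG
  have hc0 : 0 < ε * c := ENNReal.ofReal_pos.1 (pos_of_gt hvol)
  set a := ε * θ / 2 with ha
  set e := ε - ε * θ / 2 with he
  have hεθ : 0 < ε * θ := mul_pos hε hθ
  have hεθ' : ε * θ < ε := mul_lt_of_lt_one_right hε hθ1
  have hw : 0 < e - a := by rw [he, ha]; linarith
  set f : E n → ℝ := fun x => max 0 (min 1 ((e - cdist G S x) / (e - a))) with hf
  have hfc : Continuous f := continuous_const.max (continuous_const.min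
    ((continuous_const.sub (continuous_cdist hG hS)).div_const _))
  have hf01 : ∀ x, f x ∈ Icc (0 : ℝ) 1 := fun x =>
    ⟨le_max_left _ _, max_le zero_le_one (min_le_left _ _)⟩
  have hfone : ∀ x, cdist G S x ≤ a → f x = 1 := fun x hx => by
    have : 1 ≤ (e - cdist G S x) / (e - a) := by rw [le_div_iff₀ hw]; linarith
    simp [hf, min_eq_left this]
  have hfzero : ∀ x, e ≤ cdist G S x → f x = 0 := fun x hx => by
    have : (e - cdist G S x) / (e - a) ≤ 0 :=
      div_nonpos_of_nonpos_of_nonneg (by linarith) hw.le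
    simp [hf, min_eq_right (this.trans zero_le_one), max_eq_left this]
  set A : Set (E n) := {x | a ≤ cdist G S x ∧ cdist G S x ≤ e} with hA
  have hAball : ∀ x ∈ A, ‖x‖ ≤ R + 1 := fun x hx =>
    norm_le_of_cdist_lt hG hS hR hm (by linarith [hx.2])
  have hAc : IsCompact A := (isCompact_closedBall (0 : E n) (R + 1)).of_isClosed_subset
    ((isClosed_le continuous_const (continuous_cdist hG hS)).inter
      (isClosed_le (continuous_cdist hG hS) continuous_const))
    fun x hx => mem_closedBall_zero_iff.2 (hAball x hx)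
  have hAvol : vol G A < ENNReal.ofReal (ε * c) := by
    refine lt_of_le_of_lt (measure_mono (t := nbhd G S ε \ S)
      fun x hx => ⟨(mem_nbhd_iff hS).2 ?_, fun hxS => ?_⟩) hvol
    · linarith [hx.2]
    · linarith [hx.1, cdist_of_mem (G := G) hxS]
  obtain ⟨δ, hδ, hnear⟩ := gnorm_near hG (R := R + 2) hθ
  obtain ⟨M, hM0, hM⟩ := exists_upper hG (isCompact_closedBall (0 : E n) (R + 2))
  -- the radius of mollification
  obtain ⟨δ₁, hδ₁, hthick⟩ := Metric.eventually_nhds_iff.1
    ((tendsto_measure_cthickening_of_isCompact hAc).eventually_lt_const hAvol)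
  obtain ⟨ρ, hρ, hρ1, hρδ, hρM, hρA⟩ : ∃ ρ : ℝ, 0 < ρ ∧ 2 * ρ ≤ 1 ∧ 2 * ρ < δ ∧ M * ρ ≤ a ∧
      vol G (cthickening (2 * ρ) A) < ENNReal.ofReal (ε * c) := by
    refine ⟨min (1 / 2) (min (δ / 4) (min (a / (M + 1)) (δ₁ / 4))),
      by positivity, by linarith [min_le_left (1 / 2 : ℝ) (min (δ / 4) (min (a / (M + 1)) (δ₁ / 4)))],
      ?_, ?_, hthick ?_⟩
    · have := (min_le_right (1 / 2 : ℝ) _).trans (min_le_left (δ / 4) (min (a / (M + 1)) (δ₁ / 4)))
      linarith
    · have h := (min_le_right (1 / 2 : ℝ) _).trans ((min_le_right (δ / 4) _).trans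
        (min_le_left (a / (M + 1)) (δ₁ / 4)))
      refine (mul_le_mul_of_nonneg_left h hM0).trans ?_
      rw [mul_div_assoc', div_le_iff₀ (by linarith)]
      nlinarith [show 0 ≤ a by rw [ha]; linarith]
    · have h := (min_le_right (1 / 2 : ℝ) _).trans ((min_le_right (δ / 4) _).trans
        (min_le_right (a / (M + 1)) (δ₁ / 4)))
      have h0 : 0 < min (1 / 2 : ℝ) (min (δ / 4) (min (a / (M + 1)) (δ₁ / 4))) := by positivity
      rw [Real.dist_eq, sub_zero, abs_of_pos (by linarith)]
      linarith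
  let φ : ContDiffBump (0 : E n) := ⟨ρ / 2, ρ, half_pos hρ, half_lt_self hρ⟩
  set g : E n → ℝ := φ.normed volume ⋆[ContinuousLinearMap.lsmul ℝ ℝ, volume] f with hg
  have hgdef : ∀ x, g x = ∫ t, φ.normed volume t * f (x - t) := fun x => by
    rw [hg, convolution_def]; simp
  have hint : ∀ x, Integrable (fun t => φ.normed volume t * f (x - t)) := fun x =>
    (φ.continuous_normed.mul (hfc.comp (continuous_const.sub continuous_id))).integrable_of_hasCompactSupport
      φ.hasCompactSupport_normed.mul_right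
  have hgs : ContDiff ℝ ∞ g :=
    φ.hasCompactSupport_normed.contDiff_convolution_left _ φ.contDiff_normed
      hfc.locallyIntegrable
  have hg01 : ∀ x, g x ∈ Icc (0 : ℝ) 1 := fun x => by
    rw [hgdef]
    refine ⟨integral_nonneg fun t => mul_nonneg (φ.nonneg_normed t) (hf01 _).1, ?_⟩
    refine (integral_mono (hint x) φ.integrable_normed fun t =>
      mul_le_of_le_one_right (φ.nonneg_normed t) (hf01 _).2).trans_eq φ.integral_normed
  have hgeq : ∀ x b, (∀ y ∈ ball x ρ, f y = b) → g x = b := fun x b hb => by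
    rw [hg, φ.normed_convolution_eq_right fun y hy => (hb y hy).trans (hb x (mem_ball_self hρ)).symm]
    exact hb x (mem_ball_self hρ)
  -- near S
  have hgS : ∀ x ∈ S, g x = 1 := fun x hx => hgeq x 1 fun y hy => hfone y <| by
    have hxn : ‖x‖ ≤ R := by simpa using hR hx
    have hyd : ‖y - x‖ ≤ ρ := by rw [← dist_eq_norm]; exact (mem_ball.1 hy).le
    refine (cdist_le_add hG hS (x := x) (M := M * ρ) fun t ht => ?_).trans ?_
    · refine (hM _ ?_ _).trans (mul_le_mul_of_nonneg_left hyd hM0)
      rw [mem_closedBall_zero_iff]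
      refine (norm_add_le _ _).trans ?_
      rw [norm_smul, Real.norm_of_nonneg ht.1]
      nlinarith [norm_nonneg (y - x), ht.1, ht.2]
    · linarith [cdist_of_mem (G := G) hx]
  -- far from S
  have hgfar : ∀ x, R + 2 < ‖x‖ → g x = 0 := fun x hx => hgeq x 0 fun y hy => hfzero y <| by
    by_contra hlt
    have h1 := norm_le_of_cdist_lt hG hS hR hm (x := y) (by linarith [not_le.1 hlt])
    have h2 : dist y x < ρ := mem_ball.1 hy
    rw [dist_eq_norm] at h2
    linarith [norm_sub_norm_le x y, norm_sub_rev x y]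
  have hgsupp : tsupport g ⊆ closedBall 0 (R + 2) := closure_minimal
    (fun x hx => mem_closedBall_zero_iff.2 (not_lt.1 fun h => hx (hgfar x h))) isClosed_closedBall
  -- off A
  set A' := cthickening (2 * ρ) A with hA'
  have hconst : ∀ x ∉ A', ∃ b, (b = 0 ∨ b = 1) ∧ ∀ y ∈ ball x (2 * ρ), f y = b := by
    intro x hx
    have hdis : ∀ y ∈ ball x (2 * ρ), cdist G S y < a ∨ e < cdist G S y := fun y hy => by
      by_contra hcon
      push Not at hcon
      exact hx (mem_cthickening_of_dist_le x y _ A hcon (by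
        rw [dist_comm]; exact (mem_ball.1 hy).le))
    have hord := ((convex_ball x (2 * ρ)).isPreconnected.image (cdist G S)
      (continuous_cdist hG hS).continuousOn).ordConnected
    have hxx : x ∈ ball x (2 * ρ) := mem_ball_self (by linarith)
    have hmid : ∀ y z, y ∈ ball x (2 * ρ) → z ∈ ball x (2 * ρ) →
        cdist G S y < a → e < cdist G S z → False := fun y z hy hz h1 h2 => by
      obtain ⟨w, hw1, hw2⟩ := hord.out (mem_image_of_mem _ hy) (mem_image_of_mem _ hz)
        (⟨h1.le, by linarith⟩ : a ∈ Icc (cdist G S y) (cdist G S z))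
      rcases hdis w hw1 with h | h <;> linarith
    rcases hdis x hxx with h | h
    · refine ⟨1, Or.inr rfl, fun y hy => ?_⟩
      rcases hdis y hy with h' | h'
      · exact hfone y h'.le
      · exact (hmid x y hxx hy h h').elim
    · refine ⟨0, Or.inl rfl, fun y hy => ?_⟩
      rcases hdis y hy with h' | h'
      · exact (hmid y x hy hxx h' h).elim
      · exact hfzero y h'.le
  have hflat : ∀ x ∉ A', g x * (1 - g x) = 0 ∧ fderiv ℝ g x = 0 := fun x hx => by
    obtain ⟨b, hb, hfb⟩ := hconst x hx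
    have hev : g =ᶠ[𝓝 x] fun _ => b := by
      filter_upwards [ball_mem_nhds x hρ] with z hz
      refine hgeq z b fun y hy => hfb y ?_
      rw [mem_ball] at hy hz ⊢
      linarith [dist_triangle y z x]
    refine ⟨?_, by rw [hev.fderiv_eq]; simp⟩
    rw [hev.eq_of_nhds]
    rcases hb with rfl | rfl <;> simp
  have hA'ball : ∀ x ∈ A', x ∈ closedBall (0 : E n) (R + 2) := fun x hx => by
    rw [hA', hAc.cthickening_eq_biUnion_closedBall (by linarith)] at hx
    simp only [mem_iUnion, mem_closedBall] at hx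
    obtain ⟨p, hp, hxp⟩ := hx
    rw [mem_closedBall_zero_iff]
    rw [dist_eq_norm] at hxp
    linarith [norm_sub_norm_le x p, hAball p hp]
  set B := (1 + θ) / (e - a) with hB
  have hB0 : 0 ≤ B := div_nonneg (by linarith) hw.le
  have hgrad : ∀ x, gnorm G x (grad G g x) ≤ A'.indicator (fun _ => B) x := by
    intro x
    by_cases hx : x ∈ A'
    swap
    · rw [indicator_of_notMem hx]
      simp [grad, (hflat x hx).2, gnorm]
    rw [indicator_of_mem hx]
    refine gnorm_grad_le hG hB0 fun w => ?_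
    have hline : HasDerivAt (fun t : ℝ => g (x + t • w)) (fderiv ℝ g x w) 0 :=
      ((hgs.differentiable (by simp)) x).hasFDerivAt.hasLineDerivAt w
    have hnw : 0 < ‖w‖ + 1 := by positivity
    refine (Real.norm_eq_abs _).symm.trans_le
      (hline.le_of_lip' (mul_nonneg hB0 (gnorm_nonneg G _ _)) ?_)
    filter_upwards [ball_mem_nhds (0 : ℝ) (show 0 < (δ - 2 * ρ) / (‖w‖ + 1) by
      exact div_pos (by linarith) hnw)] with t ht
    rw [mem_ball, dist_zero_right, Real.norm_eq_abs, lt_div_iff₀ hnw] at ht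
    rw [zero_smul, add_zero, sub_zero, Real.norm_eq_abs, Real.norm_eq_abs, hgdef, hgdef,
      ← integral_sub (hint _) (hint _)]
    calc |∫ z, φ.normed volume z * f (x + t • w - z) - φ.normed volume z * f (x - z)|
        ≤ ∫ z, φ.normed volume z * (B * gnorm G x w * |t|) := by
          refine (abs_integral_le_integral_abs).trans (integral_mono
            ((hint _).sub (hint _)).abs (φ.integrable_normed.mul_const _) fun z => ?_)
          simp only
          rw [← mul_sub, abs_mul, abs_of_nonneg (φ.nonneg_normed z)]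
          rcases eq_or_ne (φ.normed volume z) 0 with h0 | h0
          · simp [h0]
          refine mul_le_mul_of_nonneg_left ?_ (φ.nonneg_normed z)
          have hz : ‖z‖ < ρ := by
            have h : z ∈ ball (0 : E n) φ.rOut := φ.support_normed_eq.subset h0
            simpa using h
          have hseg : |cdist G S (x + t • w - z) - cdist G S (x - z)| ≤
              |t| * ((1 + θ) * gnorm G x w) := by
            refine abs_cdist_sub_le hG hS fun s hs => ?_
            have e1 : x + t • w - z - (x - z) = t • w := by module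
            rw [e1, gnorm_smul]
            refine mul_le_mul_of_nonneg_left (hnear x (hA'ball x hx) _ ?_ w) (abs_nonneg t)
            have e2 : x - z + s • t • w - x = s • t • w - z := by module
            rw [dist_eq_norm, e2]
            refine (norm_sub_le _ _).trans_lt ?_
            rw [norm_smul, norm_smul, Real.norm_of_nonneg hs.1, Real.norm_eq_abs]
            nlinarith [mul_le_of_le_one_left (mul_nonneg (abs_nonneg t) (norm_nonneg w)) hs.2,
              abs_nonneg t]
          refine (abs_clamp_sub_le _ _).trans ?_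
          rw [← sub_div, abs_div, abs_of_pos hw, div_le_iff₀ hw,
            show e - cdist G S (x + t • w - z) - (e - cdist G S (x - z)) =
              -(cdist G S (x + t • w - z) - cdist G S (x - z)) by ring, abs_neg]
          refine hseg.trans (le_of_eq ?_)
          rw [hB]; field_simp
      _ = B * gnorm G x w * |t| := by
          rw [integral_mul_const, φ.integral_normed, one_mul]
  have hA'c : IsCompact A' := hAc.cthickening
  have hA'top : vol G A' ≠ ⊤ := hA'c.measure_ne_top
  have hA'real : (vol G).real A' ≤ ε * c := ENNReal.toReal_le_of_le_ofReal hc0.le hρA.le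
  have hind : ∀ b : ℝ, Integrable (A'.indicator fun _ => b) (vol G) := fun b =>
    (integrable_indicator_iff hA'c.measurableSet).2 (integrableOn_const hA'top)
  have hSfin : vol G S ≠ ⊤ :=
    measure_ne_top_of_subset hR (isCompact_closedBall (0 : E n) R).measure_ne_top
  refine ⟨g, hgs, hgsupp, hg01, ?_, ?_, ?_, hgS⟩
  · have hgi : Integrable g (vol G) := hgs.continuous.integrable_of_hasCompactSupport
      (HasCompactSupport.of_support_subset_isCompact (isCompact_closedBall (0 : E n) (R + 2))
        ((subset_tsupport g).trans hgsupp))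
    calc (vol G S).toReal = ∫ x, S.indicator (fun _ => (1 : ℝ)) x ∂vol G := by
          rw [integral_indicator_const _ hSm, smul_eq_mul, mul_one, measureReal_def]
      _ ≤ _ := integral_mono ((integrable_indicator_iff hSm).2 (integrableOn_const hSfin)) hgi
          fun x => by
            by_cases hx : x ∈ S
            · simp [indicator_of_mem hx, hgS x hx]
            · simp [indicator_of_notMem hx, (hg01 x).1]
  · calc tvar G g ≤ ∫ x, A'.indicator (fun _ => B) x ∂vol G :=
          integral_mono_of_nonneg (Eventually.of_forall fun x => gnorm_nonneg G _ _) (hind B)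
            (Eventually.of_forall hgrad)
      _ = (vol G).real A' * B := by
          rw [integral_indicator_const _ hA'c.measurableSet, smul_eq_mul]
      _ ≤ ε * c * B := mul_le_mul_of_nonneg_right hA'real hB0
      _ = (1 + θ) * c / (1 - θ) := by
          have : e - a = ε * (1 - θ) := by rw [he, ha]; ring
          have h1θ : 1 - θ ≠ 0 := by linarith
          rw [hB, this]; field_simp
  · calc ∫ x, g x * (1 - g x) ∂vol G ≤ ∫ x, A'.indicator (fun _ => (1 : ℝ)) x ∂vol G := by
          refine integral_mono_of_nonneg (Eventually.of_forall fun x =>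
            mul_nonneg (hg01 x).1 (by linarith [(hg01 x).2])) (hind 1)
            (Eventually.of_forall fun x => ?_)
          by_cases hx : x ∈ A'
          · rw [indicator_of_mem hx]
            exact mul_le_one₀ (hg01 x).2 (by linarith [(hg01 x).2]) (by linarith [(hg01 x).1])
          · rw [indicator_of_notMem hx]; exact (hflat x hx).1.le
      _ ≤ ε * c := by
          rw [integral_indicator_const _ hA'c.measurableSet, smul_eq_mul, mul_one]
          exact hA'real

/-- The mollified clamp of the distance to `S`. -/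
theorem exists_test (hS : S.Nonempty) {R m : ℝ} (hR : S ⊆ closedBall 0 R)
    (hm : ∀ x ∈ closedBall (0 : E n) (R + 1), ∀ u, m * ‖u‖ ≤ gnorm G x u)
    (hSm : MeasurableSet S) {ε c θ : ℝ} (hε : 0 < ε) (hεm : ε < m) (hθ : 0 < θ) (hθ1 : θ < 1)
    (hvol : vol G (nbhd G S ε \ S) < ENNReal.ofReal (ε * c)) :
    ∃ g : E n → ℝ, ContDiff ℝ ∞ g ∧ tsupport g ⊆ closedBall 0 (R + 2) ∧
      (∀ x, g x ∈ Icc (0 : ℝ) 1) ∧ (vol G S).toReal ≤ ∫ x, g x ∂vol G ∧
      tvar G g ≤ (1 + θ) * c / (1 - θ) ∧ ∫ x, g x * (1 - g x) ∂vol G ≤ ε * c := by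
  obtain ⟨g, h1, h2, h3, h4, h5, h6, -⟩ :=
    exists_test_one hG hS hR hm hSm hε hεm hθ hθ1 hvol
  exact ⟨g, h1, h2, h3, h4, h5, h6⟩

end Minkowski

open Minkowski in
/-- The smooth inequality gives the inequality for lower Minkowski content. -/
theorem minkowskiStmt (n : ℕ) : MinkowskiStmt n := by
  intro hn hsob G hCH S hSm hSb hS0 c hc
  have hG := hCH.metric
  have := finite_compacts hG
  obtain ⟨R, hR⟩ := hSb.subset_closedBall (0 : E n)
  have hSne : S.Nonempty := nonempty_of_measure_ne_zero hS0.ne'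
  have hSfin : vol G S ≠ ⊤ :=
    measure_ne_top_of_subset hR (isCompact_closedBall (0 : E n) R).measure_ne_top
  obtain ⟨m, hm0, hm⟩ := exists_lower hG (isCompact_closedBall (0 : E n) (R + 1))
  set V := (vol G S).toReal with hV
  set δ := (profile n V - c) / 4 with hδ
  have hδ0 : 0 < δ := by rw [hδ]; linarith
  obtain ⟨L, hL0, hL⟩ := hsob G hCH (closedBall 0 (R + 2)) (isCompact_closedBall _ _) δ hδ0
  have hε₀ : 0 < min m (δ / (L * |c| + 1)) := lt_min hm0 (by positivity)
  filter_upwards [Ioo_mem_nhdsGT hε₀] with ε hε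
  by_contra hcon
  push Not at hcon
  obtain ⟨hεm, hεδ⟩ := lt_min_iff.1 hε.2
  have hsub : S ⊆ nbhd G S ε := fun x hx =>
    (mem_nbhd_iff hSne).2 ((cdist_of_mem hx).trans_lt hε.1)
  have hNtop : vol G (nbhd G S ε) ≠ ⊤ := hcon.ne_top
  have hlt : (vol G (nbhd G S ε)).toReal < V + ε * c := ENNReal.lt_ofReal_iff_toReal_lt hNtop |>.1 hcon
  have hle : V ≤ (vol G (nbhd G S ε)).toReal := ENNReal.toReal_mono hNtop (measure_mono hsub)
  have hεc : 0 < ε * c := by linarith
  have hc0 : 0 < c := pos_of_mul_pos_right hεc hε.1.le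
  have hvol : vol G (nbhd G S ε \ S) < ENNReal.ofReal (ε * c) := by
    rw [measure_sdiff hsub hSm.nullMeasurableSet hSfin,
      ENNReal.lt_ofReal_iff_toReal_lt (ENNReal.sub_ne_top hNtop),
      ENNReal.toReal_sub_of_le (measure_mono hsub) hNtop]
    linarith
  set θ := min (1 / 2) (δ / (4 * c + 1)) with hθ
  have hθ0 : 0 < θ := lt_min (by norm_num) (by positivity)
  have hθ1 : θ ≤ 1 / 2 := min_le_left _ _
  obtain ⟨g, hgs, hsupp, hg01, hmass, htv, hmid⟩ :=
    exists_test hG hSne hR hm hSm hε.1 hεm hθ0 (by linarith) hvol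
  have hmain := hL g hgs hsupp hg01
  have hmono : profile n V ≤ profile n (∫ x, g x ∂vol G) := by
    have hn1 : (1 : ℝ) ≤ n := by exact_mod_cast hn
    exact mul_le_mul_of_nonneg_left
      (Real.rpow_le_rpow ENNReal.toReal_nonneg hmass (div_nonneg (by linarith) (by linarith)))
      (mul_nonneg (by linarith) (Real.rpow_nonneg ENNReal.toReal_nonneg _))
  have h1 : (1 + θ) * c / (1 - θ) ≤ c + δ := by
    have h4 : θ * (4 * c + 1) ≤ δ :=
      (le_div_iff₀ (by linarith)).1 (min_le_right _ _)
    rw [div_le_iff₀ (by linarith)]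
    nlinarith [mul_nonneg hθ0.le hδ0.le, mul_le_mul_of_nonneg_left hθ1 hδ0.le]
  have h2 : L * ∫ x, g x * (1 - g x) ∂vol G ≤ δ := by
    refine (mul_le_mul_of_nonneg_left hmid hL0).trans ?_
    have h3 := (lt_div_iff₀ (by positivity)).1 hεδ
    nlinarith [le_abs_self c, mul_le_mul_of_nonneg_left (le_abs_self c) (mul_nonneg hL0 hε.1.le), hε.1]
  linarith

end

end Vale.Agent.P219.CH
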