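import Vale.Agent.P219.CH.CoordBridge
import Vale.Agent.P219.CH.CoordNbhd
import Vale.Agent.P219.CH.Minkowski

/-!
P219: the lower Minkowski content in coordinates.
-/

namespace Vale.Agent.P219.CH.Coord

open MeasureTheory Filter Topology

noncomputable section

variable {n : ℕ}

lemma vol_eq_volOf (g : E n → Fin n → Fin n → ℝ) (T : Set (E n)) :
    vol (toCoeff g) T = volOf g T := by
  rw [vol, withDensity_apply', volOf]
  simp only [dens_eq_density]

lemma nbhd_eq (g : E n → Fin n → Fin n → ℝ) (S : Set (E n)) (ε : ℝ) :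
    nbhd (toCoeff g) S ε = nbhdOf g S ε := by
  have e : gnorm (toCoeff g) = len g := funext fun x => funext fun u => by
    rw [gnorm, len, toCoeff_apply]
  simp only [nbhd, nbhdOf, e]

theorem minkowski (hn : 0 < n) (hS : SobolevStmt n) (g : E n → Fin n → Fin n → ℝ)
    (hg : CartanHadamard g) (S : Set (E n)) (hSm : MeasurableSet S) (hSb : Bornology.IsBounded S)
    (h0 : 0 < volOf g S) (c : ℝ)
    (hc : c < n * ballVol n ^ (1 / (n : ℝ)) * (volOf g S).toReal ^ (((n : ℝ) - 1) / n)) :
    ∀ᶠ ε in 𝓝[>] (0 : ℝ),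
      ENNReal.ofReal ((volOf g S).toReal + ε * c) ≤ volOf g (nbhdOf g S ε) := by
  simpa only [vol_eq_volOf, nbhd_eq] using
    minkowskiStmt n hn hS (toCoeff g) (isCH hg) S hSm hSb (by rwa [vol_eq_volOf]) c
      (by rw [vol_eq_volOf]; exact hc)

end

end Vale.Agent.P219.CH.Coord
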