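import Vale.Agent.P219.CH.CoordBridge
import Vale.Agent.P219.CH.Theta.Defs

/-!
P219: from the smooth form with a penalty to the relaxed perimeter of a bounded measurable set,
in coordinates.
-/

namespace Vale.Agent.P219.CH.Coord

open MeasureTheory Filter Topology
open scoped ContDiff

noncomputable section

/-- The Euclidean metric. -/
lemma cartanHadamard_id (n : ℕ) :
    CartanHadamard (fun (_ : E n) (i j : Fin n) => if i = j then (1 : ℝ) else 0) := by
  have hc : ∀ x k i j, christ (fun (_ : E n) (i j : Fin n) => if i = j then (1 : ℝ) else 0)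
      x k i j = 0 := by
    intro x k i j
    simp [christ, pd, lineDeriv]
  refine ⟨⟨fun i j => contDiff_const, fun x i j => by simp [eq_comm], fun x u hu => ?_⟩,
    fun x v => ⟨fun t => x + t • v, fun _ => v, by simp, rfl, fun t k => ⟨?_, ?_⟩⟩,
    fun x u v => ?_⟩
  · obtain ⟨i, hi⟩ := Function.ne_iff.1 hu
    have : 0 < ∑ i, u i * u i :=
      Finset.sum_pos' (fun i _ => mul_self_nonneg (u i)) ⟨i, Finset.mem_univ i, mul_self_pos.2 hi⟩
    simpa [ite_mul] using this
  · simpa using ((hasDerivAt_id t).mul_const (v k)).const_add (x k)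
  · simpa [hc] using hasDerivAt_const t (v k)
  · simp [secNum, riem, hc, pd, lineDeriv]

theorem perimeterWith {n : ℕ} (hn : 0 < n) {θ : ℝ} (hS : SobolevWith n θ) (g : E n → Fin n → Fin n → ℝ)
    (hg : CartanHadamard g) (K : Set (E n)) (hK : IsCompact K) (S : Set (E n))
    (hSm : MeasurableSet S) (hSK : S ⊆ K) (f : ℕ → E n → ℝ)
    (hf : ∀ k, ContDiff ℝ ∞ (f k)) (hs : ∀ k, tsupport (f k) ⊆ K)
    (h01 : ∀ k x, f k x ∈ Set.Icc (0 : ℝ) 1)
    (hlim : Tendsto (fun k => ∫ x, |f k x - S.indicator 1 x| * density g x) atTop (𝓝 0))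
    (c : ℝ) (hc : c < θ * (n * ballVol n ^ (1 / (n : ℝ))) *
      (∫ x in S, density g x) ^ (((n : ℝ) - 1) / n)) :
    ∀ᶠ k in atTop, c < ∫ x, gradLen g (f k) x * density g x := by
  have hG := isMetric hg.1
  have hd : Continuous (density g) := dens_eq_density g ▸ hG.contDiff_dens.continuous
  have hd0 : ∀ x, 0 ≤ density g x := fun x => Real.sqrt_nonneg _
  have hi : ∀ k, Integrable fun x => f k x * density g x := fun k =>
    ((hf k).continuous.mul hd).integrable_of_hasCompactSupport
      (HasCompactSupport.mul_right (hK.of_isClosed_subset (isClosed_tsupport _) (hs k)))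
  have hI : Integrable fun x => S.indicator 1 x * density g x := by
    have h : IntegrableOn (density g) S := (hd.continuousOn.integrableOn_compact hK).mono_set hSK
    refine (h.integrable_indicator hSm).congr (Eventually.of_forall fun x => ?_)
    by_cases hx : x ∈ S <;> simp [hx]
  have hV : ∫ x, S.indicator 1 x * density g x = ∫ x in S, density g x := by
    rw [← integral_indicator hSm]
    congr 1; funext x
    by_cases hx : x ∈ S <;> simp [hx]
  set V := ∫ x in S, density g x
  set δ := (θ * (n * ballVol n ^ (1 / (n : ℝ))) * V ^ (((n : ℝ) - 1) / n) - c) / 4 with hδd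
  have hδ : 0 < δ := by rw [hδd]; linarith
  obtain ⟨L, hL, h⟩ := hS _ (isCH hg) K hK δ hδ
  have habs : ∀ k, Integrable fun x => |f k x - S.indicator 1 x| * density g x := fun k => by
    refine ((hi k).sub hI).abs.congr (Eventually.of_forall fun x => ?_)
    simp [← sub_mul, abs_mul, abs_of_nonneg (hd0 x)]
  have hvol : Tendsto (fun k => ∫ x, f k x * density g x) atTop (𝓝 V) := by
    rw [tendsto_iff_norm_sub_tendsto_zero]
    refine squeeze_zero (fun _ => norm_nonneg _) (fun k => ?_) hlim
    rw [← hV, ← integral_sub (hi k) hI]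
    refine (norm_integral_le_integral_norm _).trans_eq ?_
    congr 1; funext x
    simp [← sub_mul, abs_of_nonneg (hd0 x)]
  have hexp : (0 : ℝ) ≤ ((n : ℝ) - 1) / n := by
    have : (1 : ℝ) ≤ n := by exact_mod_cast hn
    exact div_nonneg (by linarith) (by linarith)
  have hprof : Tendsto (fun k => θ * ((n : ℝ) * ballVol n ^ (1 / (n : ℝ))) *
      (∫ x, f k x * density g x) ^ (((n : ℝ) - 1) / n)) atTop
      (𝓝 (θ * (n * ballVol n ^ (1 / (n : ℝ))) * V ^ (((n : ℝ) - 1) / n))) :=
    (((Real.continuous_rpow_const hexp).tendsto V).comp hvol).const_mul _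
  have hpen : Tendsto (fun k => L * ∫ x, f k x * (1 - f k x) * density g x) atTop (𝓝 0) := by
    rw [show (0 : ℝ) = L * 0 by ring]
    refine (squeeze_zero (fun k => integral_nonneg fun x => ?_) (fun k => ?_) hlim).const_mul L
    · exact mul_nonneg (mul_nonneg (h01 k x).1 (by linarith [(h01 k x).2])) (hd0 x)
    · refine integral_mono_of_nonneg (Eventually.of_forall fun x => ?_) (habs k)
        (Eventually.of_forall fun x => ?_)
      · exact mul_nonneg (mul_nonneg (h01 k x).1 (by linarith [(h01 k x).2])) (hd0 x)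
      · refine mul_le_mul_of_nonneg_right ?_ (hd0 x)
        have h0 := (h01 k x).1
        have h1 := (h01 k x).2
        by_cases hx : x ∈ S <;>
          simp only [Set.indicator, hx, if_true, if_false, Pi.one_apply, sub_zero]
        · rw [abs_of_nonpos (by linarith)]; nlinarith
        · rw [abs_of_nonneg h0]; nlinarith
  filter_upwards [hprof.eventually_const_lt (show θ * (n * ballVol n ^ (1 / (n : ℝ))) *
      V ^ (((n : ℝ) - 1) / n) - δ < _ by linarith), hpen.eventually_lt_const hδ] with k h1 h2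
  have hk := h (f k) (hf k) (hs k) (h01 k)
  simp only [profile, tvar, integral_vol hg.1,
    gnorm_grad hg.1 ((hf k).differentiable (by simp)).differentiableAt] at hk
  change _ ≤ _ at hk
  have : θ * ((n : ℝ) * ballVol n ^ (1 / (n : ℝ)) *
      (∫ x, f k x * density g x) ^ (((n : ℝ) - 1) / n)) ≤
      (∫ x, gradLen g (f k) x * density g x) + L * (∫ x, f k x * (1 - f k x) * density g x) + δ :=
    hk
  linarith

theorem perimeter {n : ℕ} (hn : 0 < n) (hS : SobolevStmt n) (g : E n → Fin n → Fin n → ℝ)
    (hg : CartanHadamard g) (K : Set (E n)) (hK : IsCompact K) (S : Set (E n))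
    (hSm : MeasurableSet S) (hSK : S ⊆ K) (f : ℕ → E n → ℝ)
    (hf : ∀ k, ContDiff ℝ ∞ (f k)) (hs : ∀ k, tsupport (f k) ⊆ K)
    (h01 : ∀ k x, f k x ∈ Set.Icc (0 : ℝ) 1)
    (hlim : Tendsto (fun k => ∫ x, |f k x - S.indicator 1 x| * density g x) atTop (𝓝 0))
    (c : ℝ) (hc : c < n * ballVol n ^ (1 / (n : ℝ)) *
      (∫ x in S, density g x) ^ (((n : ℝ) - 1) / n)) :
    ∀ᶠ k in atTop, c < ∫ x, gradLen g (f k) x * density g x :=
  perimeterWith hn (sobolevWith_one.2 hS) g hg K hK S hSm hSK f hf hs h01 hlim c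
    (by rwa [one_mul])

end

end Vale.Agent.P219.CH.Coord
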