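import Mathlib

/-!
P219: Cartan-Hadamard metrics on `ℝⁿ` (every Cartan-Hadamard manifold has this form) and the
isoperimetric statement.
-/

namespace Vale.Agent.P219.CH

open MeasureTheory Filter Topology
open scoped ContDiff RealInnerProductSpace

noncomputable section

/-- The underlying space. -/
abbrev E (n : ℕ) := EuclideanSpace ℝ (Fin n)

variable {n : ℕ}

/-- The coefficient field of a metric: at each point a bilinear form. -/
abbrev Coeff (n : ℕ) := E n → E n →L[ℝ] E n →L[ℝ] ℝ

/-- A smooth Riemannian metric on `ℝⁿ`. -/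
structure IsMetric (G : Coeff n) : Prop where
  smooth : ContDiff ℝ ∞ G
  symm : ∀ x u v, G x u v = G x v u
  pos : ∀ x u, u ≠ 0 → 0 < G x u u

/-- The norm of a tangent vector. -/
def gnorm (G : Coeff n) (x u : E n) : ℝ := Real.sqrt (G x u u)

/-- The endomorphism `A` with `⟪A u, v⟫ = G u v`. -/
def sharp (G : Coeff n) (x : E n) : E n →L[ℝ] E n :=
  (InnerProductSpace.toDual ℝ (E n)).symm.toContinuousLinearEquiv.toContinuousLinearMap.comp (G x)

/-- The Koszul functional `z ↦ G(Γ(u, v), z)`. -/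
def koszul (G : Coeff n) (x u v : E n) : E n →L[ℝ] ℝ :=
  (1 / 2 : ℝ) • (fderiv ℝ G x u v + fderiv ℝ G x v u - ((fderiv ℝ G x).flip u).flip v)

/-- The Christoffel symbol `Γ(u, v)` of the Levi-Civita connection. -/
def chr (G : Coeff n) (x u v : E n) : E n :=
  Ring.inverse (sharp G x) ((InnerProductSpace.toDual ℝ (E n)).symm (koszul G x u v))

/-- The curvature tensor `R(u, v) w`. -/
def curv (G : Coeff n) (x u v w : E n) : E n :=
  fderiv ℝ (fun y => chr G y v w) x u - fderiv ℝ (fun y => chr G y u w) x v +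
    chr G x u (chr G x v w) - chr G x v (chr G x u w)

/-- Nonpositive sectional curvature. -/
def SecNonpos (G : Coeff n) : Prop := ∀ x u v, G x (curv G x u v v) u ≤ 0

/-- A geodesic, parametrised affinely. -/
def IsGeodesic (G : Coeff n) (γ : ℝ → E n) : Prop :=
  ∀ t, HasDerivAt γ (deriv γ t) t ∧
    HasDerivAt (deriv γ) (-chr G (γ t) (deriv γ t) (deriv γ t)) t

/-- Every geodesic is defined for all times. -/
def GeodComplete (G : Coeff n) : Prop :=
  ∀ x v, ∃ γ : ℝ → E n, IsGeodesic G γ ∧ γ 0 = x ∧ deriv γ 0 = v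

/-- A Cartan-Hadamard metric on `ℝⁿ`. -/
structure IsCH (G : Coeff n) : Prop where
  metric : IsMetric G
  complete : GeodComplete G
  sec : SecNonpos G

/-- The density of the Riemannian volume. -/
def dens (G : Coeff n) (x : E n) : ℝ :=
  Real.sqrt (Matrix.of fun i j =>
    G x (EuclideanSpace.single i 1) (EuclideanSpace.single j 1)).det

/-- The Riemannian volume. -/
def vol (G : Coeff n) : Measure (E n) := volume.withDensity fun x => ENNReal.ofReal (dens G x)

/-- The end points of `C¹` curves of length less than `ε` starting in `S`. -/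
def nbhd (G : Coeff n) (S : Set (E n)) (ε : ℝ) : Set (E n) :=
  {q | ∃ γ : ℝ → E n, ContDiff ℝ 1 γ ∧ γ 0 ∈ S ∧ γ 1 = q ∧
    ∫ s in (0 : ℝ)..1, gnorm G (γ s) (deriv γ s) < ε}

/-- The volume of the Euclidean unit ball. -/
def omega (n : ℕ) : ℝ := (volume (Metric.ball (0 : E n) 1)).toReal

/-- The Euclidean isoperimetric profile `n ω^(1/n) V^((n-1)/n)`. -/
def profile (n : ℕ) (V : ℝ) : ℝ :=
  n * omega n ^ (1 / (n : ℝ)) * V ^ (((n : ℝ) - 1) / n)

/-- The sharp isoperimetric inequality of Cartan and Hadamard in dimension `n`, with the boundary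
measured by lower Minkowski content. -/
def IsoStmt (n : ℕ) : Prop :=
  ∀ G : Coeff n, IsCH G → ∀ S : Set (E n), MeasurableSet S → Bornology.IsBounded S →
    0 < vol G S → ∀ c < profile n (vol G S).toReal,
      ∀ᶠ ε in 𝓝[>] (0 : ℝ), ENNReal.ofReal ((vol G S).toReal + ε * c) ≤ vol G (nbhd G S ε)

end

end Vale.Agent.P219.CH
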