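import Vale.Agent.P219.CH.Geo.Basic

/-!
P219: the Euclidean metric is a Cartan-Hadamard metric, and its unit ball shows that the constant
in the isoperimetric inequality cannot be improved.
-/

namespace Vale.Agent.P219.CH

open MeasureTheory Filter Topology Metric
open scoped ContDiff RealInnerProductSpace

noncomputable section

variable {n : ℕ}

/-- The Euclidean metric. -/
def Eucl (n : ℕ) : Coeff n := fun _ => innerSL ℝ

theorem Eucl_apply (x u v : E n) : Eucl n x u v = ⟪u, v⟫ := rfl

theorem isMetric_eucl (n : ℕ) : IsMetric (Eucl n) where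
  smooth := contDiff_const
  symm _ u v := real_inner_comm v u
  pos _ _ hu := real_inner_self_pos.2 hu

theorem gnorm_eucl (x u : E n) : gnorm (Eucl n) x u = ‖u‖ := by
  rw [gnorm, Eucl_apply, real_inner_self_eq_norm_sq, Real.sqrt_sq (norm_nonneg u)]

theorem chr_eucl (x u v : E n) : chr (Eucl n) x u v = 0 := by
  refine (isMetric_eucl n).ext (x := x) fun w => ?_
  rw [(isMetric_eucl n).G_chr]
  have h : fderiv ℝ (Eucl n) x = 0 := fderiv_const_apply _
  simp [koszul, h]

theorem curv_eucl (x u v w : E n) : curv (Eucl n) x u v w = 0 := by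
  simp [curv, chr_eucl]

theorem isCH_eucl (n : ℕ) : IsCH (Eucl n) where
  metric := isMetric_eucl n
  complete x v := by
    refine ⟨fun t => x + t • v, ?_, by simp, ?_⟩
    · intro t
      have h : ∀ s : ℝ, HasDerivAt (fun t => x + t • v) v s := fun s => by
        simpa using ((hasDerivAt_id s).smul_const v).const_add x
      rw [funext fun s => (h s).deriv, chr_eucl, neg_zero]
      exact ⟨h t, hasDerivAt_const t v⟩
    · simpa using (((hasDerivAt_id (0 : ℝ)).smul_const v).const_add x).deriv
  sec x u v := by simp [curv_eucl]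

theorem dens_eucl (x : E n) : dens (Eucl n) x = 1 := by
  have h : gmat (Eucl n) x = 1 := by
    ext i j
    rcases eq_or_ne i j with rfl | hij
    · simp [gmat, Eucl_apply]
    · simp [gmat, Eucl_apply, hij, EuclideanSpace.inner_single_left]
  simp [dens_eq, h]

theorem vol_eucl (n : ℕ) : vol (Eucl n) = volume := by
  simp [vol, dens_eucl]

theorem nbhd_eucl_ball_subset (n : ℕ) (r ε : ℝ) :
    nbhd (Eucl n) (ball 0 r) ε ⊆ ball 0 (r + ε) := by
  rintro q ⟨γ, hγ, h0, rfl, hlen⟩
  simp only [gnorm_eucl] at hlen
  have hd : Continuous (deriv γ) := hγ.continuous_deriv le_rfl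
  have hint : ∫ s in (0 : ℝ)..1, deriv γ s = γ 1 - γ 0 :=
    intervalIntegral.integral_deriv_eq_sub
      (fun s _ => (hγ.differentiable (by simp)).differentiableAt) (hd.intervalIntegrable _ _)
  have hle : ‖γ 1 - γ 0‖ < ε := by
    rw [← hint]
    exact (intervalIntegral.norm_integral_le_integral_norm zero_le_one).trans_lt hlen
  rw [mem_ball_zero_iff] at h0 ⊢
  linarith [norm_le_norm_add_norm_sub (γ 0) (γ 1), norm_sub_rev (γ 0) (γ 1)]

theorem omega_pos_eucl (n : ℕ) : 0 < omega n :=
  ENNReal.toReal_pos (measure_ball_pos volume (0 : E n) one_pos).ne' measure_ball_lt_top.ne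

theorem profile_omega (hn : 0 < n) : profile n (omega n) = n * omega n := by
  have h : (1 / (n : ℝ)) + ((n : ℝ) - 1) / n = 1 := by
    field_simp
    ring
  rw [profile, mul_assoc, ← Real.rpow_add (omega_pos_eucl n), h, Real.rpow_one]

/-- The unit ball of Euclidean space attains equality: no larger boundary term is possible. -/
theorem profile_attained (hn : 0 < n) :
    ∀ c : ℝ, profile n (omega n) < c → ∀ᶠ ε in 𝓝[>] (0 : ℝ),
      vol (Eucl n) (nbhd (Eucl n) (ball 0 1) ε) < ENNReal.ofReal (omega n + ε * c) := by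
  intro c hc
  rw [profile_omega hn] at hc
  have : Nonempty (Fin n) := ⟨⟨0, hn⟩⟩
  have hcont : Continuous fun ε : ℝ => omega n * ∑ i ∈ Finset.range n, (1 + ε) ^ i := by fun_prop
  have hev : ∀ᶠ ε in 𝓝 (0 : ℝ), omega n * ∑ i ∈ Finset.range n, (1 + ε) ^ i < c :=
    hcont.continuousAt.eventually_lt continuousAt_const (by simpa [mul_comm] using hc)
  filter_upwards [nhdsWithin_le_nhds hev, self_mem_nhdsWithin] with ε hε hpos
  have hpos : (0 : ℝ) < ε := hpos
  calc vol (Eucl n) (nbhd (Eucl n) (ball 0 1) ε)
      ≤ volume (ball (0 : E n) (1 + ε)) := by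
        rw [vol_eucl]
        exact measure_mono (nbhd_eucl_ball_subset n 1 ε)
    _ = ENNReal.ofReal ((1 + ε) ^ n) * volume (ball (0 : E n) 1) := by
        rw [Measure.addHaar_ball_of_pos volume _ (by linarith), finrank_euclideanSpace_fin]
    _ = ENNReal.ofReal ((1 + ε) ^ n * omega n) := by
        rw [ENNReal.ofReal_mul (by positivity), omega,
          ENNReal.ofReal_toReal measure_ball_lt_top.ne]
    _ < ENNReal.ofReal (omega n + ε * c) := by
        have hg := geom_sum_mul (1 + ε) n
        have hlt := mul_lt_mul_of_pos_left hε hpos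
        refine (ENNReal.ofReal_lt_ofReal_iff_of_nonneg
          (mul_nonneg (by positivity) (omega_pos_eucl n).le)).2 ?_
        have hexp : (1 + ε) ^ n * omega n =
            omega n + ε * (omega n * ∑ i ∈ Finset.range n, (1 + ε) ^ i) := by
          rw [eq_add_of_sub_eq hg.symm]
          ring
        linarith

/-- The hypotheses of the isoperimetric statement hold for the Euclidean unit ball. -/
theorem eucl_ball_vol (n : ℕ) : (vol (Eucl n) (ball 0 1)).toReal = omega n := by
  rw [vol_eucl, omega]

end

end Vale.Agent.P219.CH
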