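import Vale.Agent.P219.CH.Defs

/-!
P219: interfaces between the geometry, the integral-geometric core, the certificates and the
passage to Minkowski content.

* `Geo G`: what the core uses from the geometry (`Geo/*` proves `GeoStmt`).
* `Cert n`: a certificate of the chord inequality (`Cert/*`).
* `SobolevStmt n`: the smooth form proved by the core from `Geo` and `Cert` (`Core/*`).
* `Sobolev → IsoStmt` is `Minkowski.lean`.
-/

namespace Vale.Agent.P219.CH

open MeasureTheory Filter Topology
open scoped ContDiff RealInnerProductSpace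

noncomputable section

variable {n : ℕ}

/-- The covariant derivative of a vector field in direction `w`. -/
def covd (G : Coeff n) (X : E n → E n) (x w : E n) : E n := fderiv ℝ X x w + chr G x w (X x)

/-- The Riemannian gradient. -/
def grad (G : Coeff n) (f : E n → ℝ) (x : E n) : E n :=
  Ring.inverse (sharp G x) ((InnerProductSpace.toDual ℝ (E n)).symm (fderiv ℝ f x))

/-- The normal `-∇f / |∇f|`, zero at critical points. -/
def normal (G : Coeff n) (f : E n → ℝ) (x : E n) : E n :=
  -(gnorm G x (grad G f x))⁻¹ • grad G f x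

/-- The divergence `tr ∇X`. -/
def divg (G : Coeff n) (X : E n → E n) (x : E n) : ℝ :=
  ∑ i, covd G X x (EuclideanSpace.single i 1) i

/-- The divergence along the level sets of `f`. -/
def divTan (G : Coeff n) (f : E n → ℝ) (X : E n → E n) (x : E n) : ℝ :=
  divg G X x - G x (covd G X x (normal G f x)) (normal G f x)

/-- The total variation `∫ |∇f|`. -/
def tvar (G : Coeff n) (f : E n → ℝ) : ℝ := ∫ x, gnorm G x (grad G f x) ∂vol G

/-- The surface measure `|∇f| vol` of all level sets together. -/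
def surf (G : Coeff n) (f : E n → ℝ) : Measure (E n) :=
  (vol G).withDensity fun x => ENNReal.ofReal (gnorm G x (grad G f x))

/-- The Liouville measure on the tangent bundle. -/
def liouville (G : Coeff n) : Measure (E n × E n) :=
  ((volume : Measure (E n)).prod volume).withDensity fun p => ENNReal.ofReal (dens G p.1 ^ 2)

/-- The geodesic flow and the facts used from nonpositive curvature. -/
structure Geo (G : Coeff n) where
  /-- The geodesic flow `(t, (x, v)) ↦ (γ t, γ' t)`. -/
  flow : ℝ → E n × E n → E n × E n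
  flow_c1 : ContDiff ℝ 1 fun q : ℝ × (E n × E n) => flow q.1 q.2
  flow_zero : ∀ p, flow 0 p = p
  flow_add : ∀ s t p, flow (s + t) p = flow s (flow t p)
  flow_geodesic : ∀ p, IsGeodesic G (fun t => (flow t p).1) ∧
    ∀ t, deriv (fun s => (flow s p).1) t = (flow t p).2
  flow_scale : ∀ (c t : ℝ) (x v : E n),
    flow t (x, c • v) = ((flow (c * t) (x, v)).1, c • (flow (c * t) (x, v)).2)
  flow_speed : ∀ t p, gnorm G (flow t p).1 (flow t p).2 = gnorm G p.1 p.2
  /-- The inverse of the exponential map at `x`. -/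
  logm : E n → E n → E n
  exp_logm : ∀ x y, (flow 1 (x, logm x y)).1 = y
  logm_exp : ∀ x v, logm x (flow 1 (x, v)).1 = v
  logm_c1 : ContDiff ℝ 1 fun q : E n × E n => logm q.1 q.2
  /-- Hessian comparison for `V x y = ` the velocity of arrival at `y` of the geodesic from `x`. -/
  hess : ∀ x y w, G y w w ≤
    G y (covd G (fun z => (flow 1 (x, logm x z)).2) y w) w
  /-- `V x` is the gradient of half the squared distance to `x`. -/
  grad_dist : ∀ x y w, fderiv ℝ (fun z => G x (logm x z) (logm x z)) y w =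
    2 * G y (flow 1 (x, logm x y)).2 w
  /-- The exponential map does not decrease volume. -/
  polar : ∀ (x : E n) (h : E n → ENNReal), Measurable h →
    ∫⁻ v, h (flow 1 (x, v)).1 * ENNReal.ofReal (dens G x) ≤ ∫⁻ y, h y ∂vol G
  liouville_inv : ∀ t, MeasurePreserving (flow t) (liouville G) (liouville G)

/-- The distance. -/
def Geo.dist {G : Coeff n} (Γ : Geo G) (x y : E n) : ℝ := gnorm G x (Γ.logm x y)

/-- The unit-speed velocity `V x y = dist · ∇dist`. -/
def Geo.V {G : Coeff n} (Γ : Geo G) (x y : E n) : E n := (Γ.flow 1 (x, Γ.logm x y)).2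

/-- Geometry of Cartan-Hadamard metrics. -/
def GeoStmt (n : ℕ) : Prop := ∀ G : Coeff n, IsCH G → Nonempty (Geo G)

/-- The kernel of a radial field `φ (r²) r ∇r` at scale one (mean curvature `n - 1`). -/
def kernelQ (n : ℕ) (a : ℝ) (φ : ℝ → ℝ) (r d : ℝ) : ℝ :=
  a + (1 - d ^ 2) * (φ (r ^ 2) + 2 * r ^ 2 * deriv φ (r ^ 2)) + φ (r ^ 2) * ((n : ℝ) - 2 + d ^ 2) -
    ((n : ℝ) - 1) * r * φ (r ^ 2) * d

/-- A certificate of the sharp chord inequality. -/
structure Cert (n : ℕ) where
  /-- The coefficient of the squared area. -/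
  a : ℝ
  a_nonneg : 0 ≤ a
  /-- The price of an end point with given cosine. -/
  g : ℝ → ℝ
  g_cont : Continuous g
  g_nonpos : ∀ c ∈ Set.Icc (0 : ℝ) 1, g c ≤ 0
  /-- For every `σ` a regular field with nonnegative kernel and almost sharp chord inequality. -/
  approx : ∀ σ : ℝ, 0 < σ → ∃ φ : ℝ → ℝ, ContDiff ℝ 1 φ ∧ (∀ s, 0 ≤ s → 0 ≤ φ s) ∧
    (∀ r d, 0 ≤ r → |d| ≤ 1 → 0 ≤ kernelQ n a φ r d) ∧
    ∀ r c d, 0 < r → 0 < c → c ≤ 1 → 0 < d → d ≤ 1 →
      r - σ + g c + g d ≤
        r ^ (n - 1) * (kernelQ n a φ r c + kernelQ n a φ r d) / (2 * c * d)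
  /-- Equality for the unit ball of Euclidean space: with `u` the first coordinate,
  `a n ω = ω + 2 n ∫_{ball, u > 0} g (u / |v|) u / |v|`. -/
  balance : ∀ (hn : 0 < n), a * n * omega n = omega n + 2 * n *
    ∫ v in Metric.ball (0 : E n) 1 ∩ {v | 0 < v ⟨0, hn⟩},
      g (v ⟨0, hn⟩ / ‖v‖) * (v ⟨0, hn⟩ / ‖v‖)

/-- The smooth form: with a large penalty for intermediate values the isoperimetric deficit of
smooth functions supported in a fixed compact set is almost nonnegative. -/
def SobolevStmt (n : ℕ) : Prop :=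
  ∀ G : Coeff n, IsCH G → ∀ K : Set (E n), IsCompact K → ∀ δ : ℝ, 0 < δ → ∃ L : ℝ, 0 ≤ L ∧
    ∀ f : E n → ℝ, ContDiff ℝ ∞ f → tsupport f ⊆ K → (∀ x, f x ∈ Set.Icc (0 : ℝ) 1) →
      profile n (∫ x, f x ∂vol G) ≤
        tvar G f + L * (∫ x, f x * (1 - f x) ∂vol G) + δ

/-- The core theorem. -/
def CoreStmt (n : ℕ) : Prop := 5 ≤ n → GeoStmt n → Cert n → SobolevStmt n

/-- The passage to Minkowski content. -/
def MinkowskiStmt (n : ℕ) : Prop := 0 < n → SobolevStmt n → IsoStmt n

end

end Vale.Agent.P219.CH
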