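import Vale.Agent.P219.CH.Geo.Hadamard
import Vale.Agent.P219.CH.Core.Minimise
import Vale.Agent.P219.CH.Core.Chord
import Vale.Agent.P219.CH.Core.Variation
import Vale.Agent.P219.CH.Core.Field

/-!
P219: assembly of the Cartan-Hadamard isoperimetric inequality from a certificate.
-/

namespace Vale.Agent.P219.CH

/-- A certificate in dimension `n ≥ 5` proves the smooth form of the sharp inequality. -/
theorem sobolev_of_cert {n : ℕ} (hn : 5 ≤ n) (C : Cert n) : SobolevStmt n :=
  Core.core_stmt (Core.chordStmt n) (Core.variationStmt n) (Core.avgFieldStmt n) hn (geoStmt n) C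

end Vale.Agent.P219.CH
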