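import Vale.Agent.P219.CH.Core.MinTools
import Vale.Agent.P219.CH.Core.Field.Surf
import Mathlib.Analysis.Calculus.BumpFunction.Convolution

/-!
P219: the perimeter form of the isoperimetric inequality, from the smooth form.

`∫_S div X` over fields with `|X| ≤ 1` is the perimeter of De Giorgi, the area of the boundary for
smooth domains. The smooth form is applied to mollifications of the indicator of `S`; the
mollifier is then moved to a field almost attaining their total variation, which stretches it by a
factor tending to one.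
-/

namespace Vale.Agent.P219.CH

open MeasureTheory Set Filter Topology
open scoped ContDiff Convolution

noncomputable section

/-- The sharp isoperimetric inequality with the boundary measured by the perimeter. -/
def PerimStmt (n : ℕ) : Prop :=
  ∀ G : Coeff n, IsCH G → ∀ S : Set (E n), MeasurableSet S → Bornology.IsBounded S →
    ∀ c < profile n (vol G S).toReal, ∃ X : E n → E n, ContDiff ℝ ∞ X ∧ HasCompactSupport X ∧
      (∀ x, gnorm G x (X x) ≤ 1) ∧ c ≤ ∫ x in S, divg G X x ∂vol G

namespace Perimeter

variable {n : ℕ} {G : Coeff n} {F : Type*} [NormedAddCommGroup F] [NormedSpace ℝ F]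

/-- Mollification. -/
def mol (φ : ContDiffBump (0 : E n)) (g : E n → F) : E n → F :=
  φ.normed volume ⋆[ContinuousLinearMap.lsmul ℝ ℝ, volume] g

theorem mol_apply (φ : ContDiffBump (0 : E n)) (g : E n → F) (x : E n) :
    mol φ g x = ∫ t, φ.normed volume t • g (x - t) := rfl

theorem contDiff_mol (φ : ContDiffBump (0 : E n)) [CompleteSpace F] {g : E n → F}
    (hg : LocallyIntegrable g) : ContDiff ℝ ∞ (mol φ g) :=
  φ.hasCompactSupport_normed.contDiff_convolution_left _ φ.contDiff_normed hg

theorem integrable_mol (φ : ContDiffBump (0 : E n)) {g : E n → F} (hg : Continuous g)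
    (hgc : HasCompactSupport g) (x : E n) :
    Integrable fun t => φ.normed volume t • g (x - t) :=
  hgc.convolutionExists_right (ContinuousLinearMap.lsmul ℝ ℝ)
    φ.continuous_normed.locallyIntegrable hg x

theorem fderiv_mol_coord (φ : ContDiffBump (0 : E n)) {Z : E n → E n} (hZ : ContDiff ℝ 1 Z)
    (hZc : HasCompactSupport Z) (i : Fin n) (y e : E n) :
    fderiv ℝ (fun z => mol φ Z z i) y e =
      mol φ (fun a => fderiv ℝ (fun z => Z z i) a e) y := by
  have h1 : ∀ z, mol φ Z z i = mol φ (fun a => Z a i) z := fun z =>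
    ((EuclideanSpace.proj (𝕜 := ℝ) i).integral_comp_comm
      (integrable_mol φ hZ.continuous hZc z)).symm
  have hi : ContDiff ℝ 1 fun a => Z a i := (EuclideanSpace.proj (𝕜 := ℝ) i).contDiff.comp hZ
  have hic : HasCompactSupport fun a => Z a i := hZc.comp_left (g := fun v : E n => v i) rfl
  simp only [h1]
  have hd := hic.hasFDerivAt_convolution_right (ContinuousLinearMap.lsmul ℝ ℝ) (μ := volume)
    (φ.continuous_normed (μ := volume)).locallyIntegrable hi y
  rw [show (fun z => mol φ (fun a => Z a i) z) = mol φ fun a => Z a i from rfl, mol, hd.fderiv,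
    convolution_precompR_apply _ φ.continuous_normed.locallyIntegrable (hic.fderiv ℝ)
      (hi.continuous_fderiv one_ne_zero)]
  rfl

/-- Mollification is symmetric. -/
theorem integral_mol (φ : ContDiffBump (0 : E n)) {g D : E n → ℝ} (hg : Integrable g)
    (hD : Continuous D) (hDc : HasCompactSupport D) :
    ∫ y, g y * mol φ D y = ∫ x, mol φ g x * D x := by
  set ρ := φ.normed (μ := volume)
  obtain ⟨C, hC⟩ := (φ.continuous_normed (μ := volume)).bounded_above_of_compact_support
    φ.hasCompactSupport_normed
  have hint : Integrable (Function.uncurry fun y x => g y * (ρ (y - x) * D x))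
      (volume.prod volume) := by
    refine ((hg.norm.mul_prod (hD.integrable_of_hasCompactSupport hDc).norm).const_mul C).mono'
      (hg.aestronglyMeasurable.comp_fst.mul
        ((φ.continuous_normed.comp (continuous_fst.sub continuous_snd)).mul
          (hD.comp continuous_snd)).aestronglyMeasurable) (Eventually.of_forall fun p => ?_)
    simp only [Function.uncurry_def, norm_mul]
    calc ‖g p.1‖ * (‖ρ (p.1 - p.2)‖ * ‖D p.2‖) ≤ ‖g p.1‖ * (C * ‖D p.2‖) := by
          gcongr; exact hC _
      _ = _ := by ring
  have e1 : ∀ y, g y * mol φ D y = ∫ x, g y * (ρ (y - x) * D x) := fun y => by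
    rw [integral_const_mul, mol, convolution_lsmul_swap]
    rfl
  have e2 : ∀ x, mol φ g x * D x = ∫ y, g y * (ρ (y - x) * D x) := fun x => by
    rw [mol, convolution_lsmul_swap, ← integral_mul_const]
    refine integral_congr_ae (Eventually.of_forall fun y => ?_)
    show ρ (x - y) • g y * D x = g y * (ρ (y - x) * D x)
    have hs : ρ (x - y) = ρ (y - x) := by
      rw [← neg_sub x y]
      exact (φ.normed_neg (x - y)).symm
    rw [hs, smul_eq_mul]
    ring
  simp only [e1, e2]
  exact integral_integral_swap hint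

theorem mol_indicator_mem (φ : ContDiffBump (0 : E n)) (S : Set (E n)) (x : E n) :
    mol φ (S.indicator fun _ => (1 : ℝ)) x ∈ Icc (0 : ℝ) 1 := by
  have h : ∀ t, 0 ≤ φ.normed volume t • S.indicator (fun _ => (1 : ℝ)) (x - t) ∧
      φ.normed volume t • S.indicator (fun _ => (1 : ℝ)) (x - t) ≤ φ.normed volume t := fun t => by
    by_cases hx : x - t ∈ S <;> simp [hx, φ.nonneg_normed]
  refine ⟨integral_nonneg fun t => (h t).1, ?_⟩
  exact (integral_mono_of_nonneg (Eventually.of_forall fun t => (h t).1) φ.integrable_normed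
    (Eventually.of_forall fun t => (h t).2)).trans_eq φ.integral_normed

theorem tsupport_mol_subset (φ : ContDiffBump (0 : E n)) (hφ : φ.rOut ≤ 1) {S : Set (E n)} {R : ℝ}
    (hS : S ⊆ Metric.closedBall 0 R) :
    tsupport (mol φ (S.indicator fun _ => (1 : ℝ))) ⊆ Metric.closedBall 0 (R + 1) := by
  refine closure_minimal ((support_convolution_subset _).trans ?_) Metric.isClosed_closedBall
  rintro _ ⟨a, ha, b, hb, rfl⟩
  rw [φ.support_normed_eq, mem_ball_zero_iff] at ha
  have hb' : b ∈ S := by by_contra h; exact hb (indicator_of_notMem h _)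
  have := mem_closedBall_zero_iff.1 (hS hb')
  rw [mem_closedBall_zero_iff]
  linarith [norm_add_le a b]

/-- On a compact set the metric and the density are almost constant at small scale. -/
theorem exists_radius (hG : IsMetric G) (R : ℝ) {η : ℝ} (hη : 0 < η) :
    ∃ r, 0 < r ∧ ∀ x z : E n, ‖z‖ ≤ R → ‖x - z‖ ≤ r → ∀ u,
      dens G z * gnorm G x u ≤ (1 + η) * (dens G x * gnorm G z u) := by
  have hd := Core.Mini.continuous_dens hG
  have h := ((isCompact_closedBall (0 : E n) R).prod
    (isCompact_sphere (0 : E n) 1)).eventually_forall_of_forall_eventually (x₀ := (0 : E n))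
    (P := fun w p => dens G p.1 * gnorm G (p.1 + w) p.2 <
      (1 + η) * (dens G (p.1 + w) * gnorm G p.1 p.2)) ?_
  · obtain ⟨r, hr, hball⟩ := Metric.eventually_nhds_iff.1 h
    refine ⟨r / 2, by positivity, fun x z hz hxz u => ?_⟩
    rcases eq_or_ne u 0 with rfl | hu
    · simp [gnorm]
    have h1 := hball (y := x - z) (by rw [dist_zero_right]; linarith) (z, ‖u‖⁻¹ • u)
      ⟨mem_closedBall_zero_iff.2 hz, by simp [norm_smul, hu]⟩
    simp only [add_sub_cancel, gnorm_smul, abs_of_nonneg (inv_nonneg.2 (norm_nonneg u))] at h1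
    refine le_of_mul_le_mul_left ?_ (inv_pos.2 (norm_pos_iff.2 hu))
    linarith
  · rintro ⟨z, u⟩ ⟨-, hu⟩
    have hu0 : u ≠ 0 := by intro h; simp [h] at hu
    have hcont : Continuous fun q : E n × E n × E n => gnorm G (q.2.1 + q.1) q.2.2 :=
      Core.Mini.continuous_gnorm hG (by fun_prop) (by fun_prop)
    have hcont' : Continuous fun q : E n × E n × E n => gnorm G q.2.1 q.2.2 :=
      Core.Mini.continuous_gnorm hG (by fun_prop) (by fun_prop)
    refine (isOpen_lt ((hd.comp (by fun_prop)).mul hcont)
      (continuous_const.mul ((hd.comp (by fun_prop)).mul hcont'))).mem_nhds ?_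
    show dens G z * gnorm G (z + 0) u < (1 + η) * (dens G (z + 0) * gnorm G z u)
    rw [add_zero]
    nlinarith [mul_pos (hG.dens_pos z) (hG.gnorm_pos (x := z) hu0)]

/-- The mollified field, with the density taken off. -/
def field (G : Coeff n) (φ : ContDiffBump (0 : E n)) (Y : E n → E n) (x : E n) : E n :=
  (dens G x)⁻¹ • mol φ (fun z => dens G z • Y z) x

theorem contDiff_field (hG : IsMetric G) (φ : ContDiffBump (0 : E n)) {Y : E n → E n}
    (hY : Continuous Y) : ContDiff ℝ ∞ (field G φ Y) :=
  (hG.contDiff_dens.inv fun x => (hG.dens_pos x).ne').smul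
    (contDiff_mol φ ((Core.Mini.continuous_dens hG).smul hY).locallyIntegrable)

theorem hasCompactSupport_field (φ : ContDiffBump (0 : E n)) {Y : E n → E n}
    (hYc : HasCompactSupport Y) : HasCompactSupport (field G φ Y) :=
  ((φ.hasCompactSupport_normed (μ := volume)).convolution _ (hYc.smul_left (f := dens G))).smul_left
    (f := fun x => (dens G x)⁻¹)

theorem gnorm_field_le (hG : IsMetric G) (φ : ContDiffBump (0 : E n)) {R η r : ℝ} (hη : 0 ≤ η)
    (hr : ∀ x z : E n, ‖z‖ ≤ R → ‖x - z‖ ≤ r → ∀ u,
      dens G z * gnorm G x u ≤ (1 + η) * (dens G x * gnorm G z u))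
    (hφ : φ.rOut ≤ r) {Y : E n → E n} (hY : Continuous Y) (hYc : HasCompactSupport Y)
    (hY1 : ∀ z, gnorm G z (Y z) ≤ 1) (hYR : ∀ z, Y z ≠ 0 → ‖z‖ ≤ R) (x : E n) :
    gnorm G x (field G φ Y x) ≤ 1 + η := by
  set Z : E n → E n := fun z => dens G z • Y z
  set m := mol φ Z x with hm
  have hdx := hG.dens_pos x
  suffices h : gnorm G x m ≤ (1 + η) * dens G x by
    rw [field, gnorm_smul, abs_of_pos (inv_pos.2 hdx), inv_mul_le_iff₀ hdx, mul_comm]
    exact h
  have hZ : Continuous Z := (Core.Mini.continuous_dens hG).smul hY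
  have hpt : ∀ t, φ.normed volume t • G x m (Z (x - t)) ≤
      φ.normed volume t * ((1 + η) * dens G x * gnorm G x m) := fun t => by
    rw [smul_eq_mul]
    by_cases ht : t ∈ Metric.ball (0 : E n) φ.rOut
    · refine mul_le_mul_of_nonneg_left ?_ (φ.nonneg_normed t)
      have hm0 := gnorm_nonneg G x m
      rcases eq_or_ne (Y (x - t)) 0 with h0 | h0
      · simp only [Z, h0, smul_zero, map_zero]
        positivity
      have h1 := hr x (x - t) (hYR _ h0) (by
        rw [sub_sub_cancel]; exact (mem_ball_zero_iff.1 ht).le.trans hφ) (Y (x - t))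
      calc G x m (Z (x - t)) = dens G (x - t) * G x m (Y (x - t)) := by simp [Z]
        _ ≤ dens G (x - t) * (gnorm G x m * gnorm G x (Y (x - t))) := by
            refine mul_le_mul_of_nonneg_left ?_ (hG.dens_pos _).le
            exact (le_abs_self _).trans (hG.cauchy x m _)
        _ = gnorm G x m * (dens G (x - t) * gnorm G x (Y (x - t))) := by ring
        _ ≤ gnorm G x m * ((1 + η) * (dens G x * gnorm G (x - t) (Y (x - t)))) :=
            mul_le_mul_of_nonneg_left h1 hm0
        _ ≤ gnorm G x m * ((1 + η) * (dens G x * 1)) := by gcongr; exact hY1 _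
        _ = _ := by ring
    · rw [← φ.support_normed_eq (μ := volume), Function.notMem_support] at ht
      simp [ht]
  have hi := integrable_mol φ hZ (hYc.smul_left (f := dens G)) x
  have e : G x m m = ∫ t, φ.normed volume t • G x m (Z (x - t)) := by
    have := (G x m).integral_comp_comm hi
    simp only [map_smul] at this
    rw [this]
    rfl
  have h2 : gnorm G x m ^ 2 ≤ (1 + η) * dens G x * gnorm G x m := by
    rw [hG.gnorm_sq, e]
    refine (integral_mono ?_ (φ.integrable_normed.mul_const _) hpt).trans_eq ?_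
    · simpa only [map_smul] using (G x m).integrable_comp hi
    · rw [integral_mul_const, φ.integral_normed, one_mul]
  rcases (gnorm_nonneg G x m).eq_or_lt with h | h
  · rw [← h]; positivity
  · exact le_of_mul_le_mul_right (by rwa [sq] at h2) h

/-- Testing the set with the mollified field is testing its mollification. -/
theorem integral_field (hG : IsMetric G) (φ : ContDiffBump (0 : E n)) {Y : E n → E n}
    (hY : ContDiff ℝ 1 Y) (hYc : HasCompactSupport Y) {S : Set (E n)} (hS : MeasurableSet S)
    (hSb : Bornology.IsBounded S) :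
    ∫ x in S, divg G (field G φ Y) x ∂vol G =
      ∫ x, mol φ (S.indicator fun _ => (1 : ℝ)) x * divg G Y x ∂vol G := by
  set Z : E n → E n := fun z => dens G z • Y z
  have hZ : ContDiff ℝ 1 Z := (Core.Field.contDiff_dens_one hG).smul hY
  have hZc : HasCompactSupport Z := hYc.smul_left (f := dens G)
  set D : Fin n → E n → ℝ := fun i a =>
    fderiv ℝ (fun z => Z z i) a (EuclideanSpace.single i 1)
  have hD : ∀ i, Continuous (D i) := fun i =>
    ((((EuclideanSpace.proj (𝕜 := ℝ) i).contDiff).comp hZ).continuous_fderiv one_ne_zero).clm_apply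
      continuous_const
  have hDc : ∀ i, HasCompactSupport (D i) := fun i =>
    (hZc.comp_left (g := fun v : E n => v i) rfl).fderiv_apply ℝ _
  set g : E n → ℝ := S.indicator fun _ => (1 : ℝ)
  have hg : Integrable g :=
    (integrableOn_const hSb.measure_lt_top.ne).integrable_indicator hS
  have e1 : ∀ x, dens G x * divg G (field G φ Y) x = ∑ i, mol φ (D i) x := fun x => by
    rw [Core.Field.dens_mul_divg hG ((contDiff_field hG φ hY.continuous).of_le (by norm_num))]
    refine Finset.sum_congr rfl fun i _ => ?_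
    rw [show (fun z => dens G z * field G φ Y z i) = fun z => mol φ Z z i from funext fun z => by
      simp [field, Z, (hG.dens_pos z).ne']]
    exact fderiv_mol_coord φ hZ hZc i x _
  have e2 : ∀ x, dens G x * divg G Y x = ∑ i, D i x := fun x => by
    rw [Core.Field.dens_mul_divg hG hY]
    simp [D, Z]
  have hmc : ∀ i, Continuous (mol φ (D i)) := fun i =>
    (contDiff_mol φ (hD i).locallyIntegrable).continuous
  have hgm : Continuous (mol φ g) := (contDiff_mol φ hg.locallyIntegrable).continuous
  calc ∫ x in S, divg G (field G φ Y) x ∂vol G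
      = ∫ x, dens G x * (S.indicator (divg G (field G φ Y)) x) := by
        rw [← integral_indicator hS, Core.Field.integral_vol hG]
    _ = ∫ x, ∑ i, g x * mol φ (D i) x := by
        refine integral_congr_ae (Eventually.of_forall fun x => ?_)
        by_cases hx : x ∈ S <;> simp [g, hx, e1]
    _ = ∑ i, ∫ x, mol φ g x * D i x := by
        rw [integral_finsetSum _ fun i _ => ?_]
        · exact Finset.sum_congr rfl fun i _ => integral_mol φ hg (hD i) (hDc i)
        · obtain ⟨C, hC⟩ := (hmc i).bounded_above_of_compact_support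
            (φ.hasCompactSupport_normed.convolution _ (hDc i))
          exact hg.mul_bdd (hmc i).aestronglyMeasurable (Eventually.of_forall hC)
    _ = ∫ x, ∑ i, mol φ g x * D i x :=
        (integral_finsetSum _ fun i _ =>
          (hgm.mul (hD i)).integrable_of_hasCompactSupport ((hDc i).mul_left (f := mol φ g))).symm
    _ = _ := by
        rw [Core.Field.integral_vol hG]
        refine integral_congr_ae (Eventually.of_forall fun x => ?_)
        show ∑ i, mol φ g x * D i x = _
        rw [← Finset.mul_sum, ← e2]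
        ring

/-- A field of norm at most one almost attaining the total variation. -/
theorem exists_field (hG : IsMetric G) {f : E n → ℝ} (hf : ContDiff ℝ ∞ f) {K : Set (E n)}
    (hK : IsCompact K) (hfK : tsupport f ⊆ K) {ε : ℝ} (hε : 0 < ε) :
    ∃ Y : E n → E n, ContDiff ℝ ∞ Y ∧ tsupport Y ⊆ K ∧ (∀ z, gnorm G z (Y z) ≤ 1) ∧
      tvar G f - ε * (vol G).real K ≤ ∫ x, f x * divg G Y x ∂vol G := by
  have := Core.Mini.locallyFinite_vol hG
  have hf1 : ContDiff ℝ 1 f := hf.of_le (by norm_num)
  have hfc : HasCompactSupport f := hK.of_isClosed_subset (isClosed_tsupport f) hfK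
  have hg : ContDiff ℝ ∞ (grad G f) := hG.contDiff_grad le_rfl hf
  set q : E n → ℝ := fun x => Real.sqrt (G x (grad G f x) (grad G f x) + ε ^ 2) with hq
  have hq0 : ∀ x, 0 < q x := fun x =>
    Real.sqrt_pos.2 (by nlinarith [hG.nonneg x (grad G f x)])
  have hqs : ContDiff ℝ ∞ q :=
    (((hG.smooth.clm_apply hg).clm_apply hg).add contDiff_const).sqrt fun x => by
      nlinarith [hG.nonneg x (grad G f x)]
  set Y : E n → E n := fun x => -(q x)⁻¹ • grad G f x with hYdef
  have hY : ContDiff ℝ ∞ Y := (hqs.inv fun x => (hq0 x).ne').neg.smul hg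
  set a : E n → ℝ := fun x => gnorm G x (grad G f x) with ha
  have hqa : ∀ x, q x = Real.sqrt (a x ^ 2 + ε ^ 2) := fun x => by
    simp only [hq, ha, hG.gnorm_sq]
  have ha0 : ∀ x, 0 ≤ a x := fun x => gnorm_nonneg _ _ _
  refine ⟨Y, hY, ?_, fun z => ?_, ?_⟩
  · refine closure_minimal (fun x hx => hfK ?_) hK.isClosed
    by_contra h
    exact hx (by simp [hYdef, Core.Mini.grad_eq_zero h])
  · rw [hYdef, gnorm_smul, abs_neg, abs_of_pos (inv_pos.2 (hq0 z)), inv_mul_le_iff₀ (hq0 z),
      mul_one]
    exact Real.sqrt_le_sqrt (by nlinarith)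
  have key : ∀ x, gnorm G x (grad G f x) * G x (Y x) (normal G f x) = (q x)⁻¹ * a x ^ 2 := by
    intro x
    simp only [hYdef, normal, map_smul, smul_apply, smul_eq_mul, ha]
    rcases (ha0 x).eq_or_lt with h | h
    · simp only [ha] at h
      simp [← h]
    · simp only [ha] at h
      rw [hG.gnorm_sq]
      field_simp
  rw [Core.Field.integral_mul_divg hG hf1 hfc (hY.of_le (by norm_num)), surf,
    integral_withDensity_eq_integral_toReal_smul
      (Core.Field.continuous_gnorm_grad hG hf1).measurable.ennreal_ofReal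
      (Eventually.of_forall fun x => ENNReal.ofReal_lt_top)]
  simp only [ENNReal.toReal_ofReal (gnorm_nonneg G _ _), smul_eq_mul, key]
  have hac : Continuous a := Core.Field.continuous_gnorm_grad hG hf1
  have hi1 : Integrable a (vol G) := Core.Mini.integrable_gnorm_grad hG hf1 hfc
  have hi2 : Integrable (K.indicator fun _ => ε) (vol G) :=
    (integrableOn_const hK.measure_lt_top.ne).integrable_indicator hK.measurableSet
  have hi3 : Integrable (fun x => (q x)⁻¹ * a x ^ 2) (vol G) := by
    refine Core.Mini.integrable_of_supp hG ((hqs.continuous.inv₀ fun x => (hq0 x).ne').mul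
      (hac.pow 2)) (HasCompactSupport.intro hK fun x hx => ?_)
    simp [ha, gnorm, Core.Mini.grad_eq_zero fun h => hx (hfK h)]
  calc tvar G f - ε * (vol G).real K = ∫ x, (a x - K.indicator (fun _ => ε) x) ∂vol G := by
        rw [integral_sub hi1 hi2, integral_indicator_const _ hK.measurableSet, smul_eq_mul,
          mul_comm ε]
        rfl
    _ ≤ _ := by
        refine integral_mono (hi1.sub hi2) hi3 fun x => ?_
        show a x - K.indicator (fun _ => ε) x ≤ (q x)⁻¹ * a x ^ 2
        by_cases hx : x ∈ K
        · rw [indicator_of_mem hx, ← div_eq_inv_mul, le_div_iff₀ (hq0 x)]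
          have h1 : q x ≤ a x + ε := by
            rw [hqa, Real.sqrt_le_left (by linarith [ha0 x])]
            nlinarith [ha0 x]
          rcases le_or_gt (a x) ε with h | h
          · nlinarith [mul_nonneg (sub_nonneg.2 h) (hq0 x).le]
          · nlinarith [mul_le_mul_of_nonneg_left h1 (sub_pos.2 h).le]
        · rw [indicator_of_notMem hx]
          simp [ha, gnorm, Core.Mini.grad_eq_zero fun h => hx (hfK h)]

/-- Mollified indicators converge in `L¹`. -/
theorem tendsto_mol_indicator (hG : IsMetric G) {S : Set (E n)} (hS : MeasurableSet S) {R : ℝ}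
    (hSR : S ⊆ Metric.closedBall 0 R) (φ : ℕ → ContDiffBump (0 : E n))
    (hφ : Tendsto (fun k => (φ k).rOut) atTop (𝓝 0)) (hφ1 : ∀ k, (φ k).rOut ≤ 1)
    (hφ2 : ∀ k, (φ k).rOut ≤ 2 * (φ k).rIn) :
    Tendsto (fun k => ∫ x, mol (φ k) (S.indicator fun _ => (1 : ℝ)) x ∂vol G) atTop
        (𝓝 (vol G S).toReal) ∧
      Tendsto (fun k => ∫ x, mol (φ k) (S.indicator fun _ => (1 : ℝ)) x *
        (1 - mol (φ k) (S.indicator fun _ => (1 : ℝ)) x) ∂vol G) atTop (𝓝 0) := by
  have := Core.Mini.locallyFinite_vol hG
  set K := Metric.closedBall (0 : E n) (R + 1)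
  have hK : IsCompact K := isCompact_closedBall _ _
  have hg : LocallyIntegrable (S.indicator fun _ => (1 : ℝ)) := by
    refine Integrable.locallyIntegrable
      ((integrableOn_const (lt_of_le_of_lt (measure_mono hSR) ?_).ne).integrable_indicator hS)
    exact measure_closedBall_lt_top
  have hae : ∀ᵐ x ∂vol G, Tendsto (fun k => mol (φ k) (S.indicator fun _ => (1 : ℝ)) x) atTop
      (𝓝 (S.indicator (fun _ => (1 : ℝ)) x)) :=
    (withDensity_absolutelyContinuous _ _).ae_le
      (ContDiffBump.ae_convolution_tendsto_right_of_locallyIntegrable hφ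
        (Eventually.of_forall hφ2) hg)
  have hb : Integrable (K.indicator fun _ => (1 : ℝ)) (vol G) :=
    (integrableOn_const hK.measure_lt_top.ne).integrable_indicator hK.measurableSet
  have hzero : ∀ k x, x ∉ K → mol (φ k) (S.indicator fun _ => (1 : ℝ)) x = 0 := fun k x hx =>
    image_eq_zero_of_notMem_tsupport fun h => hx (tsupport_mol_subset (φ k) (hφ1 k) hSR h)
  have hc : ∀ k, Continuous (mol (φ k) (S.indicator fun _ => (1 : ℝ))) := fun k => (contDiff_mol _ hg).continuous
  constructor
  · rw [show (vol G S).toReal = ∫ x, S.indicator (fun _ => (1 : ℝ)) x ∂vol G by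
      rw [integral_indicator_const _ hS, smul_eq_mul, mul_one]; rfl]
    refine tendsto_integral_of_dominated_convergence _ (fun k => (hc k).aestronglyMeasurable) hb
      (fun k => Eventually.of_forall fun x => ?_) hae
    obtain ⟨h0, h1⟩ := mol_indicator_mem (φ k) S x
    by_cases hx : x ∈ K
    · rw [indicator_of_mem hx, Real.norm_eq_abs, abs_of_nonneg h0]
      exact h1
    · simp [hzero k x hx, hx]
  · rw [← integral_zero (E n) ℝ (μ := vol G)]
    refine tendsto_integral_of_dominated_convergence _
      (fun k => ((hc k).mul (continuous_const.sub (hc k))).aestronglyMeasurable) hb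
      (fun k => Eventually.of_forall fun x => ?_) (hae.mono fun x hx => ?_)
    · obtain ⟨h0, h1⟩ := mol_indicator_mem (φ k) S x
      by_cases hx : x ∈ K
      · rw [indicator_of_mem hx, Real.norm_eq_abs, abs_of_nonneg (by nlinarith)]
        nlinarith
      · simp [hzero k x hx, hx]
    · have h := hx.mul (hx.const_sub 1)
      by_cases hxS : x ∈ S <;> simpa [hxS] using h

end Perimeter

open Perimeter in
/-- The perimeter form follows from the smooth form. -/
theorem perim_of_sobolev {n : ℕ} (hn : 0 < n) (h : SobolevStmt n) : PerimStmt n := by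
  intro G hCH S hS hSb c hc
  have hG := hCH.metric
  have := Core.Mini.locallyFinite_vol hG
  rcases le_or_gt c 0 with hc0 | hc0
  · refine ⟨fun _ => 0, contDiff_const, HasCompactSupport.zero, fun x => by simp [gnorm],
      hc0.trans_eq ?_⟩
    simp [divg, covd, chr_zero_right]
  obtain ⟨R, hR⟩ := hSb.subset_closedBall (0 : E n)
  set P := profile n (vol G S).toReal
  set a := P - c with ha'
  have ha : 0 < a := sub_pos.2 hc
  set η := a / (8 * c) with hη'
  have hη : 0 < η := by positivity
  set K := Metric.closedBall (0 : E n) (R + 1)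
  have hK : IsCompact K := isCompact_closedBall _ _
  obtain ⟨L, hL, hLf⟩ := h G hCH K hK (a / 4) (by positivity)
  obtain ⟨r, hr, hrad⟩ := exists_radius hG (R + 1) hη
  set φ : ℕ → ContDiffBump (0 : E n) := fun k =>
    ⟨1 / (2 * ((k : ℝ) + 1)), 1 / ((k : ℝ) + 1), by positivity,
      one_div_lt_one_div_of_lt (by positivity) (lt_two_mul_self (by positivity))⟩
  have hφ : Tendsto (fun k => (φ k).rOut) atTop (𝓝 0) := tendsto_one_div_add_atTop_nhds_zero_nat
  have hφ1 : ∀ k, (φ k).rOut ≤ 1 := fun k => by
    show (1 : ℝ) / ((k : ℝ) + 1) ≤ 1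
    rw [div_le_one (by positivity)]
    linarith [Nat.cast_nonneg (α := ℝ) k]
  have hφ2 : ∀ k, (φ k).rOut ≤ 2 * (φ k).rIn := fun k => le_of_eq (by
    show (1 : ℝ) / ((k : ℝ) + 1) = 2 * (1 / (2 * ((k : ℝ) + 1)))
    field_simp)
  obtain ⟨hV, hLz⟩ := tendsto_mol_indicator hG hS hR φ hφ hφ1 hφ2
  have h1 := (((Core.Mini.continuous_profile hn).tendsto _).comp hV).eventually_const_le
    (show P - a / 4 < P by linarith)
  have h2 := (hLz.const_mul L).eventually_le_const (show L * 0 < a / 4 by simpa using by linarith)
  have h3 := hφ.eventually_le_const hr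
  obtain ⟨k, hk1, hk2, hk3⟩ := (h1.and (h2.and h3)).exists
  set f := mol (φ k) (S.indicator fun _ => (1 : ℝ))
  have hgl : LocallyIntegrable (S.indicator fun _ => (1 : ℝ)) :=
    ((integrableOn_const hSb.measure_lt_top.ne).integrable_indicator hS).locallyIntegrable
  have hf : ContDiff ℝ ∞ f := contDiff_mol _ hgl
  have hfK : tsupport f ⊆ K := tsupport_mol_subset _ (hφ1 k) hR
  have hsob := hLf f hf hfK (mol_indicator_mem _ S)
  have hVK : 0 ≤ (vol G).real K := measureReal_nonneg
  set ε := a / (8 * ((vol G).real K + 1)) with hε'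
  have hε : 0 < ε := by positivity
  obtain ⟨Y, hY, hYK, hY1, hYint⟩ := exists_field hG hf hK hfK hε
  have hεK : ε * (vol G).real K ≤ a / 8 := by
    rw [hε', div_mul_eq_mul_div, div_le_div_iff₀ (by positivity) (by norm_num)]
    nlinarith
  have hYc : HasCompactSupport Y := hK.of_isClosed_subset (isClosed_tsupport Y) hYK
  have hW := contDiff_field hG (φ k) hY.continuous
  refine ⟨fun x => (1 + η)⁻¹ • field G (φ k) Y x, hW.const_smul _,
    (hasCompactSupport_field (φ k) hYc).smul_left (f := fun _ => (1 + η)⁻¹), fun x => ?_, ?_⟩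
  · rw [gnorm_smul, abs_of_pos (by positivity), inv_mul_le_iff₀ (by positivity), mul_one]
    exact gnorm_field_le hG (φ k) hη.le hrad hk3 hY.continuous hYc hY1
      (fun z hz => mem_closedBall_zero_iff.1 (hYK (subset_tsupport _ hz))) x
  · have e : ∀ x, divg G (fun x => (1 + η)⁻¹ • field G (φ k) Y x) x =
        (1 + η)⁻¹ * divg G (field G (φ k) Y) x := fun x => by
      simp only [divg, covd, fderiv_fun_const_smul ((hW.differentiable (by norm_num)) x),
        chr_smul_right, smul_apply, ← smul_add, PiLp.smul_apply, smul_eq_mul, Finset.mul_sum]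
    simp only [e]
    rw [integral_const_mul, integral_field hG (φ k) (hY.of_le (by norm_num)) hYc hS hSb,
      le_inv_mul_iff₀ (by positivity)]
    have hηc : η * c = a / 8 := by rw [hη']; field_simp
    simp only [Function.comp_apply] at hk1
    change _ ≤ ∫ x, f x * divg G Y x ∂vol G
    nlinarith

end

end Vale.Agent.P219.CH
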