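import Vale.Agent.P219.CH.Core.MinTools

/-!
P219: the sharp `L¹` Sobolev inequality from the smooth isoperimetric form.

For `u ≥ 0` the step functions `θ ((u - t) / w)` are integrated in the level `t` before `w → 0`:
this gives `∫ profile (vol {u > t}) dt ≤ ∫ |∇u|` with no differentiation in `t`. Hölder turns the
left side into the norm, and `|f|` is reached through `√(f² + ε²) - ε`.
-/

namespace Vale.Agent.P219.CH

open MeasureTheory Set Filter Topology
open scoped ContDiff

noncomputable section

/-- The sharp `L¹` Sobolev inequality. -/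
def SharpStmt (n : ℕ) : Prop :=
  ∀ G : Coeff n, IsCH G → ∀ f : E n → ℝ, ContDiff ℝ ∞ f → HasCompactSupport f →
    (n : ℝ) * omega n ^ (1 / (n : ℝ)) *
        (∫ x, |f x| ^ ((n : ℝ) / ((n : ℝ) - 1)) ∂vol G) ^ (((n : ℝ) - 1) / n) ≤ tvar G f

namespace Sharp

open Core.Mini

variable {n : ℕ} {G : Coeff n}

theorem gnorm_smul (x v : E n) (c : ℝ) : gnorm G x (c • v) = |c| * gnorm G x v := by
  simp only [gnorm, map_smul, smul_apply, smul_eq_mul]
  rw [← mul_assoc, Real.sqrt_mul (mul_self_nonneg _), Real.sqrt_mul_self_eq_abs]

theorem grad_comp {φ : ℝ → ℝ} {φ' : ℝ} {u : E n → ℝ} {x : E n} (hu : DifferentiableAt ℝ u x)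
    (hφ : HasDerivAt φ φ' (u x)) : grad G (fun y => φ (u y)) x = φ' • grad G u x := by
  have h : fderiv ℝ (fun y => φ (u y)) x = φ' • fderiv ℝ u x :=
    (hφ.comp_hasFDerivAt x hu.hasFDerivAt).fderiv
  simp [grad, h]

variable (hG : IsMetric G) {u : E n → ℝ}

/-- The volume above a level. -/
def above (G : Coeff n) (u : E n → ℝ) (t : ℝ) : ℝ := (vol G).real {x | t < u x}

/-- The smoothed step at level `t` of width `w`. -/
def step (u : E n → ℝ) (t w : ℝ) (x : E n) : ℝ := Real.smoothTransition ((u x - t) / w)

theorem step_eq_zero {t w : ℝ} (hw : 0 < w) {x : E n} (h : u x ≤ t) : step u t w x = 0 :=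
  Real.smoothTransition.zero_of_nonpos (div_nonpos_of_nonpos_of_nonneg (by linarith) hw.le)

theorem step_eq_one {t w : ℝ} (hw : 0 < w) {x : E n} (h : t + w ≤ u x) : step u t w x = 1 :=
  Real.smoothTransition.one_of_one_le (by rw [le_div_iff₀ hw]; linarith)

theorem step_mem (t w : ℝ) (x : E n) : step u t w x ∈ Icc (0 : ℝ) 1 :=
  ⟨Real.smoothTransition.nonneg _, Real.smoothTransition.le_one _⟩

theorem exists_deriv_bound : ∃ B : ℝ, 0 ≤ B ∧ ∀ s, |deriv Real.smoothTransition s| ≤ B := by
  have hc : Continuous (deriv Real.smoothTransition) :=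
    (Real.smoothTransition.contDiff (n := 1)).continuous_deriv le_rfl
  obtain ⟨B, hB⟩ := (isCompact_Icc (a := (0 : ℝ)) (b := 1)).exists_bound_of_continuousOn hc.continuousOn
  refine ⟨max B 0, le_max_right _ _, fun s => ?_⟩
  by_cases h : s ∈ Icc (0 : ℝ) 1
  · exact (Real.norm_eq_abs _ ▸ hB s h).trans (le_max_left _ _)
  · have : deriv Real.smoothTransition s = 0 := by
      rw [mem_Icc, not_and_or, not_le, not_le] at h
      rcases h with h | h
      · have e : Real.smoothTransition =ᶠ[𝓝 s] fun _ => 0 :=
          eventually_of_mem (Iio_mem_nhds h) fun r hr => Real.smoothTransition.zero_of_nonpos (le_of_lt hr)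
        rw [e.deriv_eq, deriv_const]
      · have e : Real.smoothTransition =ᶠ[𝓝 s] fun _ => 1 :=
          eventually_of_mem (Ioi_mem_nhds h) fun r hr => Real.smoothTransition.one_of_one_le (le_of_lt hr)
        rw [e.deriv_eq, deriv_const]
    rw [this, abs_zero]
    exact le_max_right _ _

include hG

theorem above_mem (hu : Continuous u) (hs : HasCompactSupport u) {t : ℝ} (ht : 0 ≤ t) :
    vol G {x | t < u x} ≠ ⊤ ∧ {x | t < u x} ⊆ tsupport u ∧ MeasurableSet {x | t < u x} := by
  have := locallyFinite_vol hG
  have hsub : {x | t < u x} ⊆ tsupport u :=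
    fun x hx => subset_tsupport _ (ht.trans_lt hx).ne'
  exact ⟨((measure_mono hsub).trans_lt hs.measure_lt_top).ne, hsub,
    measurableSet_lt measurable_const hu.measurable⟩

/-- The coarea form of the isoperimetric inequality. -/
theorem integral_profile_le (hn : 1 ≤ n) (hS : SobolevStmt n) (hCH : IsCH G) (hu : ContDiff ℝ ∞ u)
    (hs : HasCompactSupport u) {T : ℝ} (hT : 0 ≤ T) :
    ∫ t in Ioc 0 T, profile n (above G u t) ≤ tvar G u := by
  have hu1 : ContDiff ℝ 1 u := hu.of_le (by norm_num)
  have := locallyFinite_vol hG
  set K := tsupport u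
  set ν := (vol G).restrict K with hν
  have : IsFiniteMeasure ν := ⟨by rw [hν, Measure.restrict_apply_univ]; exact hs.measure_lt_top⟩
  set I := volume.restrict (Ioc (0 : ℝ) T) with hI
  have : IsFiniteMeasure I := ⟨by rw [hI, Measure.restrict_apply_univ]; exact measure_Ioc_lt_top⟩
  set g : E n → ℝ := fun x => gnorm G x (grad G u x) with hg
  have hgc : Continuous g := continuous_gnorm hG continuous_id (continuous_grad hG hu1)
  have hgz : ∀ x ∉ K, g x = 0 := fun x hx => by simp [hg, gnorm, grad_eq_zero hx]
  obtain ⟨Bg, hBg⟩ := hgc.bounded_above_of_compact_support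
    (HasCompactSupport.intro hs hgz)
  obtain ⟨Bθ, hBθ0, hBθ⟩ := exists_deriv_bound
  have hθd : Continuous (deriv Real.smoothTransition) :=
    (Real.smoothTransition.contDiff (n := 1)).continuous_deriv le_rfl
  have hθc := Real.smoothTransition.continuous
  have htu : tvar G u = ∫ x, g x ∂ν := (setIntegral_eq_integral_of_forall_compl_eq_zero hgz).symm
  refine le_of_forall_pos_le_add fun δ hδ => ?_
  obtain ⟨L, hL, hLf⟩ := hS G hCH K hs (δ / (T + 1)) (by positivity)
  have hw : ∀ w : ℝ, 0 < w → ∫ t, profile n (∫ x, step u t w x ∂ν) ∂I ≤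
      tvar G u + L * w * ν.real univ + δ := by
    intro w hw
    set D : ℝ → E n → ℝ := fun t x => deriv Real.smoothTransition ((u x - t) / w) / w * g x with hD
    set P : ℝ → E n → ℝ := fun t x => step u t w x * (1 - step u t w x) with hP
    have hzero : ∀ t ∈ Ioc 0 T, ∀ x ∉ K, step u t w x = 0 := fun t ht x hx =>
      step_eq_zero hw (by rw [image_eq_zero_of_notMem_tsupport hx]; exact ht.1.le)
    have hpt : ∀ t ∈ Ioc 0 T, profile n (∫ x, step u t w x ∂ν) ≤
        (∫ x, D t x ∂ν) + L * (∫ x, P t x ∂ν) + δ / (T + 1) := by
      intro t ht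
      have hsm : ContDiff ℝ ∞ (step u t w) :=
        Real.smoothTransition.contDiff.comp ((hu.sub contDiff_const).div_const _)
      have hsupp : tsupport (step u t w) ⊆ K :=
        closure_minimal (fun x hx => by_contra fun h => hx (hzero t ht x h)) (isClosed_tsupport _)
      have h := hLf _ hsm hsupp (step_mem t w)
      rw [← setIntegral_eq_integral_of_forall_compl_eq_zero (hzero t ht),
        ← setIntegral_eq_integral_of_forall_compl_eq_zero (f := fun x => step u t w x * (1 - step u t w x))
          (fun x hx => by simp [hzero t ht x hx])] at h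
      have e : tvar G (step u t w) = ∫ x, D t x ∂ν := by
        rw [tvar]
        have e' : ∀ x, gnorm G x (grad G (step u t w) x) = D t x := fun x => by
          have hd : HasDerivAt (fun s => Real.smoothTransition ((s - t) / w))
              (deriv Real.smoothTransition ((u x - t) / w) / w) (u x) :=
            (((Real.smoothTransition.contDiff (n := 1)).differentiable one_ne_zero _).hasDerivAt.comp
              (u x) (((hasDerivAt_id (u x)).sub_const t).div_const w)).congr_deriv (by simp only [id]; ring)
          show gnorm G x (grad G (fun y => Real.smoothTransition ((u y - t) / w)) x) = _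
          rw [grad_comp ((hu1.differentiable one_ne_zero) x) hd, gnorm_smul, abs_of_nonneg]
          exact div_nonneg (Real.smoothTransition.monotone.deriv_nonneg) hw.le
        simp only [e']
        exact (setIntegral_eq_integral_of_forall_compl_eq_zero fun x hx => by
          simp [hD, hgz x hx]).symm
      rw [e] at h
      exact h
    have iD : Integrable (Function.uncurry D) (I.prod ν) := by
      refine Integrable.of_bound ?_ (Bθ / w * Bg) (ae_of_all _ fun p => ?_)
      · refine Continuous.aestronglyMeasurable ?_
        simp only [hD, Function.uncurry_def]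
        fun_prop
      · simp only [hD, Function.uncurry_def, norm_mul, norm_div, Real.norm_eq_abs, abs_of_pos hw]
        gcongr
        · exact hBθ _
        · exact hBg p.2
    have iP : Integrable (Function.uncurry P) (I.prod ν) := by
      refine Integrable.of_bound ?_ 1 (ae_of_all _ fun p => ?_)
      · refine Continuous.aestronglyMeasurable ?_
        simp only [hP, step, Function.uncurry_def]
        fun_prop
      · obtain ⟨a, b⟩ := step_mem (u := u) p.1 w p.2
        simp only [hP, Function.uncurry_def, norm_mul, Real.norm_eq_abs]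
        rw [abs_of_nonneg a, abs_of_nonneg (show 0 ≤ 1 - step u p.1 w p.2 by linarith)]
        nlinarith
    have iS : Integrable (fun t => profile n (∫ x, step u t w x ∂ν)) I := by
      refine Integrable.of_bound ((continuous_profile hn).comp_aestronglyMeasurable
        (Integrable.integral_prod_left (f := Function.uncurry fun t x => step u t w x)
          (Integrable.of_bound ?_ 1 (ae_of_all _ fun p => ?_))).aestronglyMeasurable)
        (profile n (ν.real univ)) (ae_of_all _ fun t => ?_)
      · refine Continuous.aestronglyMeasurable ?_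
        simp only [step, Function.uncurry_def]
        fun_prop
      · obtain ⟨a, b⟩ := step_mem (u := u) p.1 w p.2
        simp only [Function.uncurry_def, Real.norm_eq_abs]
        rw [abs_of_nonneg a]
        exact b
      · have h1 : 0 ≤ ∫ x, step u t w x ∂ν := integral_nonneg fun x => (step_mem t w x).1
        have h2 : ∫ x, step u t w x ∂ν ≤ ν.real univ := by
          calc _ ≤ ∫ _x, (1 : ℝ) ∂ν := integral_mono_of_nonneg
                (ae_of_all _ fun x => (step_mem t w x).1) (integrable_const _)
                (ae_of_all _ fun x => (step_mem t w x).2)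
            _ = _ := by simp
        rw [Real.norm_eq_abs, abs_of_nonneg]
        · exact profile_mono hn h1 h2
        · have := (omega_pos n).le
          unfold profile
          positivity
    have jD : Integrable (fun t => ∫ x, D t x ∂ν) I := iD.integral_prod_left
    have jP : Integrable (fun t => ∫ x, P t x ∂ν) I := iP.integral_prod_left
    have hD1 : ∫ t, (∫ x, D t x ∂ν) ∂I ≤ tvar G u := by
      rw [integral_integral_swap iD, htu]
      refine integral_mono iD.integral_prod_right
        (Integrable.of_bound hgc.aestronglyMeasurable Bg (ae_of_all _ hBg)) fun x => ?_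
      have hint : ∫ t, deriv Real.smoothTransition ((u x - t) / w) / w ∂I =
          Real.smoothTransition (u x / w) - Real.smoothTransition ((u x - T) / w) := by
        rw [hI, ← intervalIntegral.integral_of_le hT,
          intervalIntegral.integral_eq_sub_of_hasDerivAt
            (f := fun t => -Real.smoothTransition ((u x - t) / w))]
        · rw [sub_zero]; ring
        · intro t _
          exact (((Real.smoothTransition.contDiff (n := 1)).differentiable one_ne_zero _).hasDerivAt.comp
            t (((hasDerivAt_id t).const_sub (u x)).div_const w)).neg.congr_deriv (by simp only [id]; ring)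
        · exact Continuous.intervalIntegrable (by fun_prop) _ _
      show ∫ t, deriv Real.smoothTransition ((u x - t) / w) / w * g x ∂I ≤ g x
      rw [integral_mul_const, hint]
      refine mul_le_of_le_one_left (Real.sqrt_nonneg _) ?_
      linarith [Real.smoothTransition.le_one (u x / w),
        Real.smoothTransition.nonneg ((u x - T) / w)]
    have hP1 : ∫ t, (∫ x, P t x ∂ν) ∂I ≤ w * ν.real univ := by
      rw [integral_integral_swap iP]
      calc ∫ x, (∫ t, P t x ∂I) ∂ν ≤ ∫ _x, w ∂ν := by
            refine integral_mono iP.integral_prod_right (integrable_const _) fun x => ?_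
            calc ∫ t, P t x ∂I ≤ ∫ t, (Ioo (u x - w) (u x)).indicator (fun _ => (1 : ℝ)) t ∂I := by
                  refine integral_mono_of_nonneg (ae_of_all _ fun t => ?_)
                    ((integrable_const _).indicator measurableSet_Ioo) (ae_of_all _ fun t => ?_)
                  · exact mul_nonneg (step_mem t w x).1 (sub_nonneg.2 (step_mem t w x).2)
                  · by_cases ht : t ∈ Ioo (u x - w) (u x)
                    · obtain ⟨a, b⟩ := step_mem (u := u) t w x
                      rw [indicator_of_mem ht]
                      simp only [hP]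
                      nlinarith
                    · rw [indicator_of_notMem ht]
                      rw [mem_Ioo, not_and_or, not_lt, not_lt] at ht
                      rcases ht with h | h
                      · simp [hP, step_eq_one hw (show t + w ≤ u x by linarith)]
                      · simp [hP, step_eq_zero hw h]
              _ ≤ w := by
                  rw [integral_indicator_const _ measurableSet_Ioo, smul_eq_mul, mul_one, hI,
                    measureReal_restrict_apply measurableSet_Ioo]
                  refine (measureReal_mono inter_subset_left measure_Ioo_lt_top.ne).trans (le_of_eq ?_)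
                  rw [Real.volume_real_Ioo_of_le (by linarith), sub_sub_cancel]
        _ = _ := by simp [mul_comm]
    calc ∫ t, profile n (∫ x, step u t w x ∂ν) ∂I
        ≤ ∫ t, ((∫ x, D t x ∂ν) + L * (∫ x, P t x ∂ν) + δ / (T + 1)) ∂I :=
          integral_mono_ae iS ((jD.fun_add (jP.const_mul _)).fun_add (integrable_const _))
            ((ae_restrict_iff' measurableSet_Ioc).2 (ae_of_all _ hpt))
      _ = (∫ t, (∫ x, D t x ∂ν) ∂I) + L * (∫ t, (∫ x, P t x ∂ν) ∂I) + T * (δ / (T + 1)) := by
          rw [integral_add (jD.fun_add (jP.const_mul _)) (integrable_const _),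
            integral_add jD (jP.const_mul _), integral_const_mul, integral_const]
          simp [hI, hT]
      _ ≤ tvar G u + L * w * ν.real univ + δ := by
          have h1 : T * (δ / (T + 1)) ≤ δ := by
            rw [mul_div_assoc', div_le_iff₀ (by positivity)]; nlinarith
          have h2 := mul_le_mul_of_nonneg_left hP1 hL
          linarith
  -- the width tends to zero
  set w : ℕ → ℝ := fun k => 1 / ((k : ℝ) + 1) with hwk
  have hwp : ∀ k, 0 < w k := fun k => by positivity
  have hw0 : Tendsto w atTop (𝓝 0) := tendsto_one_div_add_atTop_nhds_zero_nat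
  have hlim : Tendsto (fun k => ∫ t, profile n (∫ x, step u t (w k) x ∂ν) ∂I) atTop
      (𝓝 (∫ t, profile n (above G u t) ∂I)) := by
    refine tendsto_integral_of_dominated_convergence (fun _ => profile n (ν.real univ)) (fun k => ?_)
      (integrable_const _) (fun k => ae_of_all _ fun t => ?_) ?_
    · refine (continuous_profile hn).comp_aestronglyMeasurable
        (Integrable.integral_prod_left (f := Function.uncurry fun t x => step u t (w k) x)
          (Integrable.of_bound ?_ 1 (ae_of_all _ fun p => ?_))).aestronglyMeasurable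
      · refine Continuous.aestronglyMeasurable ?_
        simp only [step, Function.uncurry_def]
        fun_prop
      · obtain ⟨a, b⟩ := step_mem (u := u) p.1 (w k) p.2
        simp only [Function.uncurry_def, Real.norm_eq_abs]
        rw [abs_of_nonneg a]
        exact b
    · have h1 : 0 ≤ ∫ x, step u t (w k) x ∂ν := integral_nonneg fun x => (step_mem t _ x).1
      have h2 : ∫ x, step u t (w k) x ∂ν ≤ ν.real univ := by
        calc _ ≤ ∫ _x, (1 : ℝ) ∂ν := integral_mono_of_nonneg
              (ae_of_all _ fun x => (step_mem t _ x).1) (integrable_const _)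
              (ae_of_all _ fun x => (step_mem t _ x).2)
          _ = _ := by simp
      rw [Real.norm_eq_abs, abs_of_nonneg]
      · exact profile_mono hn h1 h2
      · have := (omega_pos n).le
        unfold profile
        positivity
    · refine (ae_restrict_iff' measurableSet_Ioc).2 (ae_of_all _ fun t ht => ?_)
      obtain ⟨-, hsub, hmeas⟩ := above_mem hG hu1.continuous hs ht.1.le
      have e : above G u t = ∫ x, {x | t < u x}.indicator (fun _ => (1 : ℝ)) x ∂ν := by
        rw [integral_indicator_const _ hmeas, smul_eq_mul, mul_one, hν,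
          measureReal_restrict_apply hmeas, inter_eq_left.2 hsub, above]
      rw [e]
      refine ((continuous_profile hn).tendsto _).comp
        (tendsto_integral_of_dominated_convergence (fun _ => (1 : ℝ)) (fun k => ?_)
          (integrable_const _) (fun k => ae_of_all _ fun x => ?_) (ae_of_all _ fun x => ?_))
      · exact Continuous.aestronglyMeasurable (hθc.comp (by fun_prop))
      · simpa [abs_of_nonneg (step_mem (u := u) t (w k) x).1] using (step_mem (u := u) t (w k) x).2
      · by_cases hx : t < u x
        · rw [indicator_of_mem (show x ∈ {x | t < u x} from hx)]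
          exact tendsto_const_nhds.congr' ((hw0.eventually_le_const (sub_pos.2 hx)).mono fun k hk =>
            (step_eq_one (hwp k) (by linarith)).symm)
        · rw [indicator_of_notMem (show x ∉ {x | t < u x} from hx)]
          exact tendsto_const_nhds.congr fun k => (step_eq_zero (hwp k) (not_lt.1 hx)).symm
  refine le_of_tendsto_of_tendsto hlim (?_ : Tendsto (fun k => tvar G u + L * w k * ν.real univ + δ)
    atTop (𝓝 (tvar G u + δ))) (Eventually.of_forall fun k => hw (w k) (hwp k))
  simpa using (((hw0.const_mul L).mul_const (ν.real univ)).const_add (tvar G u)).add_const δ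

/-- The sharp inequality for nonnegative functions. -/
theorem sharp_nonneg (hn : 2 ≤ n) (hS : SobolevStmt n) (hCH : IsCH G) (hu : ContDiff ℝ ∞ u)
    (hs : HasCompactSupport u) (h0 : ∀ x, 0 ≤ u x) :
    (n : ℝ) * omega n ^ (1 / (n : ℝ)) *
        (∫ x, u x ^ ((n : ℝ) / ((n : ℝ) - 1)) ∂vol G) ^ (((n : ℝ) - 1) / n) ≤ tvar G u := by
  have := locallyFinite_vol hG
  have hn' : (2 : ℝ) ≤ n := by exact_mod_cast hn
  set a : ℝ := 1 / ((n : ℝ) - 1) with ha
  have ha0 : 0 < a := one_div_pos.2 (by linarith)
  set q : ℝ := ((n : ℝ) - 1) / n with hq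
  have hq0 : 0 < q := div_pos (by linarith) (by linarith)
  set p : ℝ := (n : ℝ) / ((n : ℝ) - 1) with hp
  obtain ⟨T₀, hT₀⟩ := hu.continuous.bounded_above_of_compact_support hs
  set T := max T₀ 0
  have huT : ∀ x, u x ≤ T := fun x =>
    (le_abs_self _).trans ((hT₀ x).trans (le_max_left _ _))
  set ν := (vol G).restrict (tsupport u) with hν
  have : IsFiniteMeasure ν := ⟨by rw [hν, Measure.restrict_apply_univ]; exact hs.measure_lt_top⟩
  set I := volume.restrict (Ioc (0 : ℝ) T) with hI
  have : IsFiniteMeasure I := ⟨by rw [hI, Measure.restrict_apply_univ]; exact measure_Ioc_lt_top⟩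
  set g : E n → ℝ := fun x => u x ^ a with hg
  have hgc : Continuous g := hu.continuous.rpow_const fun _ => Or.inr ha0.le
  have hg0 : ∀ x, 0 ≤ g x := fun x => Real.rpow_nonneg (h0 x) _
  have hgT : ∀ x, g x ≤ T ^ a := fun x => Real.rpow_le_rpow (h0 x) (huT x) ha0.le
  set N := ∫ x, u x ^ p ∂vol G with hN
  have hp0 : 0 < p := div_pos (by linarith) (by linarith)
  have hN0 : 0 ≤ N := integral_nonneg fun x => Real.rpow_nonneg (h0 x) _
  have hpz : ∀ x ∉ tsupport u, u x ^ p = 0 := fun x hx => by
    rw [image_eq_zero_of_notMem_tsupport hx, Real.zero_rpow hp0.ne']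
  set F : E n → ℝ → ℝ := fun x t => (Iio (u x)).indicator (fun _ => g x) t with hF
  have hFm : Integrable (Function.uncurry F) (ν.prod I) := by
    refine Integrable.of_bound ?_ (T ^ a) (ae_of_all _ fun z => ?_)
    · refine Measurable.aestronglyMeasurable ?_
      have : Function.uncurry F = {z : E n × ℝ | z.2 < u z.1}.indicator fun z => g z.1 := by
        funext z; simp [hF, Function.uncurry_def, indicator_apply]
      rw [this]
      exact (hgc.measurable.comp measurable_fst).indicator
        (measurableSet_lt measurable_snd (hu.continuous.measurable.comp measurable_fst))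
    · simp only [hF, Function.uncurry_def, Real.norm_eq_abs, indicator_apply]
      split_ifs
      · rw [abs_of_nonneg (hg0 _)]; exact hgT _
      · rw [abs_zero]; exact Real.rpow_nonneg (le_max_right _ _) _
  have key : N ≤ (∫ t, above G u t ^ q ∂I) * N ^ (1 / (n : ℝ)) := by
    have e1 : N = ∫ x, (∫ t, F x t ∂I) ∂ν := by
      rw [hN, ← setIntegral_eq_integral_of_forall_compl_eq_zero hpz]
      refine integral_congr_ae (ae_of_all _ fun x => ?_)
      show u x ^ p = ∫ t, (Iio (u x)).indicator (fun _ => g x) t ∂I
      rw [integral_indicator_const _ measurableSet_Iio, smul_eq_mul, hI,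
        measureReal_restrict_apply measurableSet_Iio]
      have : Iio (u x) ∩ Ioc 0 T = Ioo 0 (u x) := by
        ext t; simp only [mem_inter_iff, mem_Iio, mem_Ioc, mem_Ioo]
        exact ⟨fun h => ⟨h.2.1, h.1⟩, fun h => ⟨h.2, h.1, h.2.le.trans (huT x)⟩⟩
      rw [this, Real.volume_real_Ioo_of_le (h0 x), sub_zero, hg]
      show u x ^ p = u x * u x ^ a
      rw [show p = 1 + a by
        rw [hp, ha, div_eq_iff (by linarith), add_mul, one_div_mul_cancel (by linarith)]; ring,
        Real.rpow_add' (h0 x) (by positivity), Real.rpow_one]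
    nth_rw 1 [e1]
    rw [integral_integral_swap hFm, ← integral_mul_const]
    refine integral_mono_ae hFm.integral_prod_right (Integrable.of_bound ?_
      ((vol G).real (tsupport u) ^ q * N ^ (1 / (n : ℝ))) ?_) ?_
    · refine ((Real.continuous_rpow_const hq0.le).comp_aestronglyMeasurable ?_).mul_const _
      have hanti : Antitone fun t => ν.real {x | t < u x} :=
        fun r t hrt => measureReal_mono (fun x hx => lt_of_le_of_lt hrt hx)
      refine hanti.measurable.aestronglyMeasurable.congr
        ((ae_restrict_iff' measurableSet_Ioc).2 (ae_of_all _ fun t ht => ?_))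
      obtain ⟨-, hsub, hmeas⟩ := above_mem hG hu.continuous hs ht.1.le
      show ν.real {x | t < u x} = _
      rw [hν, measureReal_restrict_apply hmeas, inter_eq_left.2 hsub, above]
    · refine (ae_restrict_iff' measurableSet_Ioc).2 (ae_of_all _ fun t ht => ?_)
      obtain ⟨-, hsub, -⟩ := above_mem hG hu.continuous hs ht.1.le
      have hab : 0 ≤ above G u t := measureReal_nonneg
      rw [Real.norm_eq_abs, abs_of_nonneg (by positivity)]
      gcongr
      exact measureReal_mono hsub hs.measure_lt_top.ne
    · refine (ae_restrict_iff' measurableSet_Ioc).2 (ae_of_all _ fun t ht => ?_)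
      obtain ⟨htop, hsub, hmeas⟩ := above_mem hG hu.continuous hs ht.1.le
      set A := {x | t < u x}
      have hpq : Real.HolderConjugate (1 / q) (n : ℝ) :=
        Real.holderConjugate_iff.2 ⟨by rw [one_div, one_lt_inv₀ hq0, hq, div_lt_one (by linarith)]; linarith,
          by rw [one_div, inv_inv, hq, sub_div, div_self (by linarith), one_div, sub_add_cancel]⟩
      have h1 : MemLp (A.indicator fun _ => (1 : ℝ)) (ENNReal.ofReal (1 / q)) ν :=
        (memLp_const (1 : ℝ)).indicator hmeas
      have h2 : MemLp g (ENNReal.ofReal (n : ℝ)) ν :=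
        MemLp.of_bound hgc.aestronglyMeasurable (T ^ a)
          (ae_of_all _ fun x => by rw [Real.norm_eq_abs, abs_of_nonneg (hg0 x)]; exact hgT x)
      have hh := integral_mul_le_Lp_mul_Lq_of_nonneg (μ := ν) hpq
        (ae_of_all _ fun x => indicator_nonneg (fun _ _ => zero_le_one) x)
        (ae_of_all _ fun x => hg0 x) h1 h2
      refine le_trans (le_of_eq (integral_congr_ae (ae_of_all _ fun x => ?_))) (hh.trans (le_of_eq ?_))
      · show (Iio (u x)).indicator (fun _ => g x) t = A.indicator (fun _ => (1 : ℝ)) x * g x
        by_cases hx : t < u x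
        · simp [A, hx]
        · simp [A, hx]
      · have ea : ∫ x, A.indicator (fun _ => (1 : ℝ)) x ^ (1 / q) ∂ν = above G u t := by
          rw [integral_congr_ae (g := A.indicator fun _ => (1 : ℝ)) (ae_of_all _ fun x => ?_),
            integral_indicator_const _ hmeas, smul_eq_mul, mul_one, hν,
            measureReal_restrict_apply hmeas, inter_eq_left.2 hsub, above]
          by_cases hx : x ∈ A
          · simp [hx]
          · simp [hx, hq0.ne']
        have eg : ∫ x, g x ^ (n : ℝ) ∂ν = N := by
          rw [hN, ← setIntegral_eq_integral_of_forall_compl_eq_zero hpz]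
          refine integral_congr_ae (ae_of_all _ fun x => ?_)
          show (u x ^ a) ^ (n : ℝ) = u x ^ p
          rw [← Real.rpow_mul (h0 x), ha, hp, one_div_mul_eq_div]
        rw [ea, eg, one_div_one_div]
  have hco := integral_profile_le hG (by omega) hS hCH hu hs (le_max_right T₀ 0)
  have e : ∫ t in Ioc 0 T, profile n (above G u t) =
      (n : ℝ) * omega n ^ (1 / (n : ℝ)) * ∫ t, above G u t ^ q ∂I := by
    rw [hI, ← integral_const_mul]; rfl
  rw [e] at hco
  refine le_trans ?_ hco
  refine mul_le_mul_of_nonneg_left ?_ (by have := (omega_pos n).le; positivity)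
  rcases hN0.eq_or_lt with h | h
  · rw [← h, Real.zero_rpow hq0.ne']
    exact integral_nonneg fun t => Real.rpow_nonneg measureReal_nonneg _
  · nth_rw 1 [show N = N ^ q * N ^ (1 / (n : ℝ)) by
      rw [← Real.rpow_add h, hq, ← add_div, sub_add_cancel, div_self (by linarith), Real.rpow_one]]
      at key
    exact le_of_mul_le_mul_right key (Real.rpow_pos_of_pos h _)

end Sharp

open Sharp Core.Mini in
/-- The sharp Sobolev inequality follows from the smooth isoperimetric form. -/
theorem sharp_stmt {n : ℕ} (hn : 2 ≤ n) (hS : SobolevStmt n) : SharpStmt n := by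
  intro G hCH f hf hs
  have hG := hCH.metric
  have := locallyFinite_vol hG
  have hn' : (2 : ℝ) ≤ n := by exact_mod_cast hn
  have hf1 : ContDiff ℝ 1 f := hf.of_le (by norm_num)
  set p : ℝ := (n : ℝ) / ((n : ℝ) - 1) with hp
  have hp0 : 0 < p := div_pos (by linarith) (by linarith)
  set e : ℕ → ℝ := fun k => 1 / ((k : ℝ) + 1) with he
  set U : ℕ → E n → ℝ := fun k x => Real.sqrt (f x ^ 2 + e k ^ 2) - e k with hU
  have hep : ∀ k, 0 < e k := fun k => by positivity
  have hUsmooth : ∀ k, ContDiff ℝ ∞ (U k) := fun k =>
    (((hf.pow 2).add contDiff_const).sqrt fun x => by positivity [hep k]).sub contDiff_const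
  have hU0 : ∀ k x, 0 ≤ U k x ∧ U k x ≤ |f x| := fun k x => by
    constructor
    · exact sub_nonneg.2 (Real.le_sqrt_of_sq_le (by nlinarith [sq_nonneg (f x)]))
    · have : Real.sqrt (f x ^ 2 + e k ^ 2) ≤ |f x| + e k := by
        rw [Real.sqrt_le_left (by positivity [hep k])]
        nlinarith [sq_abs (f x), abs_nonneg (f x), hep k]
      simp only [hU]
      linarith
  have hUs : ∀ k, HasCompactSupport (U k) := fun k =>
    HasCompactSupport.intro hs fun x hx =>
      le_antisymm ((hU0 k x).2.trans (by simp [image_eq_zero_of_notMem_tsupport hx])) (hU0 k x).1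
  have hUtv : ∀ k, tvar G (U k) ≤ tvar G f := fun k => by
    refine integral_mono (integrable_gnorm_grad hG ((hUsmooth k).of_le (by norm_num)) (hUs k))
      (integrable_gnorm_grad hG hf1 hs) fun x => ?_
    have hpos : 0 < f x ^ 2 + e k ^ 2 := by positivity [hep k]
    have hd : HasDerivAt (fun s : ℝ => Real.sqrt (s ^ 2 + e k ^ 2) - e k)
        (f x / Real.sqrt (f x ^ 2 + e k ^ 2)) (f x) := by
      refine ((((hasDerivAt_pow 2 (f x)).add_const _).sqrt hpos.ne').sub_const _).congr_deriv ?_
      field_simp
      ring
    show gnorm G x (grad G (fun y => Real.sqrt (f y ^ 2 + e k ^ 2) - e k) x) ≤ _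
    rw [grad_comp (G := G) ((hf1.differentiable one_ne_zero) x) hd, gnorm_smul]
    refine mul_le_of_le_one_left (Real.sqrt_nonneg _) ?_
    rw [abs_div, abs_of_pos (Real.sqrt_pos.2 hpos)]
    exact div_le_one_of_le₀ (Real.abs_le_sqrt (by nlinarith)) (Real.sqrt_nonneg _)
  have hlim : Tendsto (fun k => ∫ x, U k x ^ p ∂vol G) atTop (𝓝 (∫ x, |f x| ^ p ∂vol G)) := by
    refine tendsto_integral_of_dominated_convergence (fun x => |f x| ^ p)
      (fun k => (((hUsmooth k).continuous).rpow_const fun _ => Or.inr hp0.le).aestronglyMeasurable)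
      (integrable_of_supp hG (hf.continuous.abs.rpow_const fun _ => Or.inr hp0.le)
        (HasCompactSupport.intro hs fun x hx => by
          simp [image_eq_zero_of_notMem_tsupport hx, hp0.ne']))
      (fun k => ae_of_all _ fun x => ?_) (ae_of_all _ fun x => ?_)
    · rw [Real.norm_eq_abs, abs_of_nonneg (Real.rpow_nonneg (hU0 k x).1 _)]
      exact Real.rpow_le_rpow (hU0 k x).1 (hU0 k x).2 hp0.le
    · have h0 : Tendsto e atTop (𝓝 0) := tendsto_one_div_add_atTop_nhds_zero_nat
      have h1 : Continuous fun s : ℝ => (Real.sqrt (f x ^ 2 + s ^ 2) - s) ^ p :=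
        Continuous.rpow_const (by fun_prop) fun _ => Or.inr hp0.le
      have := (h1.tendsto 0).comp h0
      simpa [Function.comp_def, hU, Real.sqrt_sq_eq_abs] using this
  refine le_of_tendsto ((hlim.rpow_const (Or.inr ?_)).const_mul _) (Eventually.of_forall fun k =>
    (sharp_nonneg hG hn hS hCH (hUsmooth k) (hUs k) fun x => (hU0 k x).1).trans (hUtv k))
  exact div_nonneg (by linarith) (by linarith)

end

end Vale.Agent.P219.CH
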